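import Vale.Agent.P305U.Obj

/-!
# The program for the static part of a level
-/

namespace Vale.Agent.P305U

open Vale.Agent.P305E Vale.Agent.P305CV Vale.Agent.P305W Vale.Agent.P305Q

/-- `List.flatMap` with a computation. -/
def fmM {β γ : Type} (f : β → M (List γ)) (l : List β) : M (List γ) := mapM' f l >>= flattenP

@[fun_prop] theorem impl_fmM {α β γ : Type} [Rep α] [Rep β] [Rep γ] {f : α → β → M (List γ)}
    {l : α → List β} (hf : Impl fun p : α × β => f p.1 p.2) (hl : Pure l) :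
    Impl fun a => fmM (f a) (l a) := by unfold fmM; fun_prop

theorem mapM'_det {β γ : Type} {c : Cx} {f : β → M γ} {g : β → γ} {l : List β} {T : β → ℕ}
    (h : ∀ x ∈ l, Tri c (f x) fun y t => y = g x ∧ t ≤ T x) :
    Tri c (mapM' f l) fun r t => r = l.map g ∧ t ≤ (l.map T).sum + 2 * l.length :=
  (Tri.mapM' (P := fun x y => y = g x) h).mono fun r t h => ⟨by
    have h1 := h.1
    clear h
    induction h1 with
    | nil => rfl
    | cons a _ ih => rw [a, ih fun x hx => h x (List.mem_cons_of_mem _ hx)]; rfl, h.2⟩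

theorem fmM_tri {β γ : Type} {c : Cx} {f : β → M (List γ)} {g : β → List γ} {l : List β}
    {T : β → ℕ} (h : ∀ x ∈ l, Tri c (f x) fun y t => y = g x ∧ t ≤ T x) :
    Tri c (fmM f l) fun r t => r = l.flatMap g ∧
      t ≤ (l.map T).sum + 3 * l.length + (l.flatMap g).length := by
  refine (mapM'_det h).bind ?_
  rintro _ t ⟨rfl, ht⟩
  rw [Tri_flattenP, ← List.flatMap_def, List.length_map]
  exact ⟨rfl, by omega⟩

/-- The walk of an object. -/
def wP (F : Fo) (o : Ob) : M (List SI) := do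
  let a ← appendP (F.wk.get o.z) (F.wk.get o.y)
  foldP (fun s c => (c.1, !c.2) :: s) (o.eo.elim a fun c => c :: a) (F.wk.get o.x)

@[fun_prop] theorem impl_wP {α : Type} [Rep α] {F : α → Fo} {o : α → Ob} (hF : Pure F)
    (ho : Pure o) : Impl fun a => wP (F a) (o a) := by unfold wP; fun_prop

theorem wP_tri (c : Cx) (F : Fo) (o : Ob) :
    Tri c (wP F o) fun l t => l = F.W o ∧ t ≤ (F.W o).length := by
  have e : ∀ l s : List SI, l.foldl (fun s c => (c.1, !c.2) :: s) s = rev l ++ s := fun l => by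
    induction l with
    | nil => simp
    | cons x l ih => simp [ih]
  simp only [wP, Tri_bind, Tri_appendP, Tri_foldP, e, Fo.W, List.length_append, length_rev]
  exact ⟨by cases o.eo <;> rfl, by omega⟩

/-- The number of a node, cut off at `X`. -/
def ix (X N j v : ℕ) : ℕ := min X (j * N + v)

@[fun_prop] theorem p_ix {α : Type} [Rep α] {X N j v : α → ℕ} (hX : Pure X) (hN : Pure N)
    (hj : Pure j) (hv : Pure v) : Pure fun a => ix (X a) (N a) (j a) (v a) := by
  unfold ix; fun_prop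

theorem ix_eq {n N j v : ℕ} (hj : j < n) (hv : v < N) : ix ((n + 1) * N) N j v = j * N + v :=
  min_eq_right (by nlinarith)

/-- Increment, cut off at `k`. -/
def inc (k : ℕ) (a : Arr ℕ) (u : ℕ) : Arr ℕ := a.set u (min k (a.get u + 1))

@[fun_prop] theorem p_inc {α : Type} [Rep α] {k u : α → ℕ} {a : α → Arr ℕ} (hk : Pure k)
    (ha : Pure a) (hu : Pure u) : Pure fun x => inc (k x) (a x) (u x) := by
  unfold inc; fun_prop

theorem inc_get {k : ℕ} {a : Arr ℕ} {n : ℕ → ℕ} (h : ∀ x, a.get x = min k (n x)) (u x : ℕ) :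
    (inc k a u).get x = min k (n x + if u = x then 1 else 0) := by
  by_cases e : u = x
  · simp only [inc, e, Arr.get_set_self, h, if_true]
    omega
  · simp [inc, e, Ne.symm e, h]

theorem cw_get (k : ℕ) (G : List WE) (a : Arr ℕ) (n : ℕ → ℕ) (h : ∀ x, a.get x = min k (n x))
    (x : ℕ) : (G.foldl (fun a e => inc k (inc k a e.1) e.2.1) a).get x =
      min k (G.countP (fun e => e.1 = x) + G.countP (fun e => e.2.1 = x) + n x) := by
  induction G generalizing a n with
  | nil => simp [h]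
  | cons e G ih =>
    rw [List.foldl_cons, ih _ _ (inc_get (inc_get h e.1) e.2.1)]
    simp only [List.countP_cons, decide_eq_true_eq]
    congr 1
    omega

theorem fold_set {β : Type} (f : ℕ → β) (l : List ℕ) (a : Arr β) (y : ℕ) :
    (l.foldl (fun a x => a.set x (f x)) a).get y = if y ∈ l then f y else a.get y := by
  induction l generalizing a with
  | nil => simp
  | cons x l ih =>
    simp only [List.foldl_cons, ih, Arr.get_set, List.mem_cons]
    split_ifs <;> simp_all

theorem fold_cls (N : ℕ) (l : List ℕ) (a : Arr (List ℕ)) (u : ℕ) :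
    (l.foldl (fun a x => a.set (x % N) (x / N :: a.get (x % N))) a).get u =
      ((l.filter fun x => x % N = u).map (· / N)).reverse ++ a.get u := by
  induction l generalizing a with
  | nil => simp
  | cons x l ih =>
    rw [List.foldl_cons, ih, Arr.get_set, List.filter_cons]
    by_cases h : x % N = u
    · simp [h]
    · simp [h, Ne.symm h]

theorem fold_cap (k : ℕ) (f : ℕ → ℕ) (l : List Rec) (s : ℕ) :
    l.foldl (fun s r => min k (s + min k (f r.1))) (min k s)
      = min k (s + ((l.map Prod.fst).map f).sum) := by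
  induction l generalizing s with
  | nil => simp
  | cons r l ih =>
    rw [List.foldl_cons, show min k (min k s + min k (f r.1)) = min k (s + f r.1) by omega, ih]
    simp [Nat.add_assoc]

/-- Everything except the objects. -/
def rawP (X N k : ℕ) (G : List WE) (cs : List (ℕ × Cl)) : M LV := do
  let cw ← foldP (fun a e => inc k (inc k a e.1) e.2.1) (Arr.const 1) G
  let z ← zipIdxP cs
  let nd ← fmM (fun q => mapP (fun r => ix X N q.2 r.1) q.1.2.2 >>= fun l =>
    pure (ix X N q.2 q.1.2.1 :: l)) z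
  let rc ← fmM (fun q => mapP (fun r => ((ix X N q.2 r.1, ix X N q.2 r.2.1, r.2.2.2.2.2,
    decide (r.2.2.1 = r.1)) : Rc)) q.1.2.2) z
  let W ← foldP (fun a x => a.set x (cw.get (x % N))) (Arr.const 0) nd
  let mem ← foldP (fun a x => a.set x true) (Arr.const false) nd
  let cls ← foldP (fun a x => a.set (x % N) (x / N :: a.get (x % N))) (Arr.const []) nd
  let sc ← mapP (fun p => p.1) cs >>= ofListP 0
  let ctr ← mapP (fun p => p.2.1) cs >>= ofListP 0
  let hv ← mapM' (fun p => foldP (fun s r => min k (s + cw.get r.1)) (cw.get p.2.1) p.2.2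
    >>= fun s => pure (decide (k ≤ s))) cs >>= ofListP false
  let F ← cutP k W rc
  let ns ← filterP (fun a => !(F.sp.get a).isEmpty) nd
  pure ⟨N, F, mem, sc, ctr, hv, cls, ns, []⟩

@[fun_prop] theorem impl_rawP : Impl fun p : ℕ × ℕ × ℕ × List WE × List (ℕ × Cl) =>
    rawP p.1 p.2.1 p.2.2.1 p.2.2.2.1 p.2.2.2.2 := by
  unfold rawP; fun_prop

/-- `kaO` with numbers that are cut off. -/
def kaI (X : ℕ) (P : Arr ℕ) (L : LV) (e : WE) (j : ℕ) : Option Ob :=
  if L.mem.get (j * L.N + e.2.1) = true ∧ 1 ≤ L.sc.get j ∧ P.get (L.sc.get j - 1) ≤ e.2.2.1 ∧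
    e.2.2.1 ≤ P.get (L.sc.get j) then some ⟨L.sc.get j, none, ix X L.N j e.1,
      some (e.2.2.2, true), L.F.r (ix X L.N j e.1), ix X L.N j e.2.1⟩ else none

/-- `prO` with numbers that are cut off. -/
def prI (X : ℕ) (L : LV) (u j j' : ℕ) : Option Ob :=
  if L.sc.get j' = L.sc.get j + 1 ∧ L.mem.get (j' * L.N + L.ctr.get j) = true then
    if L.hv.get j = true then (if L.hv.get j' = true then some ⟨L.sc.get j', none, ix X L.N j u,
      none, L.F.r (ix X L.N j u), ix X L.N j' u⟩ else none)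
    else some ⟨L.sc.get j', some j, ix X L.N j' u, none, ix X L.N j u, ix X L.N j' (L.ctr.get j)⟩
  else none

/-- The objects. -/
def obsP (X : ℕ) (P : Arr ℕ) (vs : List ℕ) (G : List WE) (L : LV) : M LV := do
  let a ← fmM (fun e => filterMapP (kaI X P L e) (L.cls.get e.1)) G
  let b ← fmM (fun u => fmM (fun j => filterMapP (prI X L u j) (L.cls.get u)) (L.cls.get u)) vs
  let o ← appendP a b
  pure ⟨L.N, L.F, L.mem, L.sc, L.ctr, L.hv, L.cls, L.ns, o⟩

@[fun_prop] theorem impl_obsP : Impl fun p : ℕ × Arr ℕ × List ℕ × List WE × LV =>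
    obsP p.1 p.2.1 p.2.2.1 p.2.2.2.1 p.2.2.2.2 := by
  unfold obsP kaI prI; fun_prop

variable {ta hd len : ℕ → ℕ} {N k J : ℕ} {R : ℕ → ℕ} {vs : List ℕ} {G : List WE}
  {cs : List (ℕ × Cl)}

theorem rawP_tri (c : Cx) (h : In ta hd len N J R vs G cs) (hk : 1 ≤ k) (hB : cs.length ≤ c.B) :
    Tri c (rawP ((cs.length + 1) * N) N k G cs) fun L t =>
      Raw N k G cs L ∧ cs.length + t ≤ G.length + 21 * (nds N cs).length := by
  have hz : ∀ q ∈ cs.zipIdx, ∀ v ∈ q.1.2.vs, ix ((cs.length + 1) * N) N q.2 v = q.2 * N + v :=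
    fun q hq v hv => by
      have := List.mem_zipIdx_iff_getElem?.1 hq
      exact ix_eq (List.getElem?_eq_some_iff.1 this).1 (h.vlt this hv)
  have hw : ∀ x, (G.foldl (fun a e => inc k (inc k a e.1) e.2.1) (Arr.const 1)).get x =
      min k (wt G x) := cw_get k G _ (fun _ => 1) fun _ => (min_eq_right hk).symm
  have e1 : (cs.zipIdx.map fun q => q.1.2.2.length).sum = (cs.map fun p => p.2.2.length).sum := by
    conv_rhs => rw [← List.zipIdx_map_fst 0 cs, List.map_map]
    rfl
  have e2 : (nds N cs).length = (cs.map fun p => p.2.2.length).sum + cs.length := by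
    simp [nds, List.length_flatMap, Cl.vs, List.sum_map_add, e1]
  have e3 : (rcs N cs).length = (cs.map fun p => p.2.2.length).sum := by
    simp [rcs, List.length_flatMap, e1]
  rw [rawP, Tri_bind, Tri_foldP, Tri_bind, Tri_zipIdxP]
  generalize G.foldl _ _ = cw at hw
  refine ⟨hB, (fmM_tri (g := fun q => q.1.2.vs.map fun v => q.2 * N + v)
    (T := fun q => q.1.2.2.length) fun q hq => ?_).bind ?_⟩
  · simp only [Tri_bind, Tri_mapP, Tri_pure, Cl.vs, List.map_cons, List.map_map, add_zero, le_refl,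
      and_true]
    rw [hz q hq _ List.mem_cons_self]
    exact congrArg _ (List.map_congr_left fun r hr => hz q hq _ (fst_mem_vs hr))
  rintro _ t1 ⟨rfl, h1⟩
  refine (fmM_tri (g := fun q => q.1.2.2.map (ren N q.2))
    (T := fun q => q.1.2.2.length) fun q hq => ?_).bind ?_
  · obtain ⟨D, hD, -⟩ := (h.cl _ (List.mem_of_getElem? (List.mem_zipIdx_iff_getElem?.1 hq))).2
    simp only [Tri_mapP, le_refl, and_true]
    exact List.map_congr_left fun r hr => by
      rw [hz q hq _ (fst_mem_vs hr), hz q hq _ (par_mem hD r hr).1, ren]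
  rintro _ t2 ⟨rfl, h2⟩
  rw [← nds] at h1 ⊢
  rw [← rcs] at h2 ⊢
  simp only [Tri_bind, Tri_foldP, Tri_mapP, Tri_ofListP, List.length_map, hB, true_and]
  refine (mapM'_det (g := fun p => decide (k ≤ vol G p.2)) (T := fun p => p.2.2.length)
    fun p _ => ?_).mono ?_
  · simp only [Tri_bind, Tri_foldP, Tri_pure, hw, fold_cap, add_zero, le_refl, and_true,
      le_min_iff, true_and, vol, Cl.vs, List.map_cons, List.sum_cons]
  rintro _ t3 ⟨rfl, h3⟩
  refine ⟨by simpa using hB, (cutP_tri c _ _ _).mono ?_⟩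
  rintro _ t4 ⟨rfl, h4⟩
  simp only [Tri_filterP, Tri_pure, List.length_map]
  refine ⟨⟨rfl, fun a => by simp [fold_set (fun _ => true)], fun j p hp => by simp [hp],
    fun j hj => ?_, fun u => by simp [fold_cls], ⟨_, fun a ha => ?_, cut_ok k _ h.fl⟩, rfl⟩, ?_⟩
  · cases e : cs[j]? with
    | none => simp [e] at hj
    | some p => exact ⟨p, rfl⟩
  · rw [fold_set (fun x => cw.get (x % N)), if_pos ha, hw]
  · rw [List.length_zipIdx, e1] at h1 h2
    omega

theorem obsP_tri (c : Cx) (P : Arr ℕ) {L : LV} (h : In ta hd len N J R vs G cs)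
    (H : Raw N k G cs L) : Tri c (obsP ((cs.length + 1) * N) P vs G L) fun L' t =>
      Raw N k G cs L' ∧ L'.obs = kaL P.get L' G ++ vs.flatMap (prU L') ∧
        t ≤ (3 * J + 3) * G.length + (3 * J ^ 2 + 3 * J + 3) * vs.length := by
  have hx : ∀ u, ∀ j ∈ L.cls.get u, ∀ v, v < N → ix ((cs.length + 1) * N) L.N j v = j * L.N + v :=
    fun u j hj v hv => by
      obtain ⟨p, hp, -⟩ := (H.cls' h u j).1 hj
      rw [H.N_eq]
      exact ix_eq (List.getElem?_eq_some_iff.1 hp).1 hv
  refine (fmM_tri (g := fun e => (L.cls.get e.1).filterMap (kaO P.get L e)) (T := fun _ => J)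
    fun e he => ?_).bind ?_
  · rw [Tri_filterMapP]
    refine ⟨List.filterMap_congr fun j hj => ?_, H.cls_len h _⟩
    rw [kaI, hx _ j hj _ (h.lt _ (h.ed e he).1), hx _ j hj _ (h.lt _ (h.ed e he).2)]
    rfl
  rintro _ t1 ⟨rfl, h1⟩
  refine (fmM_tri (g := prU L) (T := fun _ => 2 * J ^ 2 + 3 * J) fun u hu => ?_).bind ?_
  · refine (fmM_tri (g := fun j => (L.cls.get u).filterMap (prO L u j)) (T := fun _ => J)
      fun j hj => ?_).mono fun r t h1 => ⟨h1.1, ?_⟩
    · rw [Tri_filterMapP]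
      refine ⟨List.filterMap_congr fun j' hj' => ?_, H.cls_len h _⟩
      rw [prI, hx _ j hj _ (h.lt _ hu), hx _ j' hj' _ (h.lt _ hu),
        hx _ j' hj' _ (h.mlt (H.ctr_mem ((H.cls' h u j).1 hj)))]
      rfl
    · have a1 := H.prU_len h u
      have a2 := H.cls_len h u
      have a3 := h1.2
      rw [← prU, List.map_const', List.sum_replicate, smul_eq_mul] at a3
      nlinarith [Nat.mul_le_mul_right J a2]
  rintro _ t2 ⟨rfl, h2⟩
  have a1 := H.kaL_len (P := P.get) h
  have a2 := H.prL_len h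
  rw [← kaL] at h1 ⊢
  simp only [List.map_const', List.sum_replicate, smul_eq_mul] at h1 h2
  simp only [Tri_bind, Tri_appendP, Tri_pure]
  exact ⟨⟨H.N_eq, H.mem, H.info, H.hv_lt, H.cls, H.fo, H.ns⟩, rfl, by nlinarith⟩

theorem level : LEVEL := by
  refine ⟨fun p => lenP p.2.2.2.2.2 >>= fun n => num ((n + 1) * p.1) >>= fun X =>
    rawP X p.1 p.2.1 p.2.2.2.2.1 p.2.2.2.2.2 >>= fun L => obsP X p.2.2.1 p.2.2.2.1 p.2.2.2.2.1 L,
    by fun_prop, fun c ta hd len N k J P R vs G cs h hk h1 h2 => ?_⟩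
  rw [Tri_bind, Tri_lenP, Tri_bind, Tri_num]
  refine ⟨h2, h1, (rawP_tri c h hk h2).bind fun L t ⟨H, ht⟩ =>
    (obsP_tri c P h H).mono fun L' t' ⟨H', ho, ht'⟩ => ⟨H'.lvOK h hk ho, ?_⟩⟩
  have a1 := h.nds_len
  nlinarith [Nat.zero_le (J * G.length), Nat.zero_le (J ^ 2 * G.length),
    Nat.zero_le (J ^ 2 * vs.length), Nat.zero_le (J * vs.length), Nat.zero_le J, Nat.zero_le (J ^ 2)]

end Vale.Agent.P305U
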