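import Vale.Agent.P305CV.Defs
import Vale.Agent.P305W.Walk

/-!
# The static part of a level: forest of the clusters, spokes, objects (specification)

The copy of the vertex `w` in the cluster number `j` is the node `j * N + w`.
-/

namespace Vale.Agent.P305U

open Vale.Agent.P305E Vale.Agent.P305CV Vale.Agent.P305W Vale.Agent.P305Q

/-- An object: scale, trigger cluster, and the parts of its walk. -/
structure Ob where
  sc : ℕ
  tr : Option ℕ
  x : ℕ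
  eo : Option SI
  z : ℕ
  y : ℕ

/-- The forest of a level: parents, signed items to the parents, spokes as lists of nodes and of
signed items, and the stops at their ends. -/
structure Fo where
  par : Arr ℕ
  te : Arr SI
  sp : Arr (List ℕ)
  wk : Arr (List SI)
  rt : Arr (Option ℕ)

/-- The static part of a level. -/
structure LV where
  N : ℕ
  F : Fo
  mem : Arr Bool
  sc : Arr ℕ
  ctr : Arr ℕ
  hv : Arr Bool
  cls : Arr (List ℕ)
  ns : List ℕ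
  obs : List Ob

/-- The stop at the end of the spoke of `a`. -/
def Fo.r (F : Fo) (a : ℕ) : ℕ := (F.rt.get a).getD a

/-- The walk of an object. -/
def Fo.W (F : Fo) (o : Ob) : List SI :=
  rev (F.wk.get o.x) ++ (o.eo.toList ++ (F.wk.get o.z ++ F.wk.get o.y))

/-- The start of the walk of an object. -/
def LV.a0 (L : LV) (o : Ob) : ℕ := L.F.r o.x % L.N
/-- The end of the walk of an object. -/
def LV.b0 (L : LV) (o : Ob) : ℕ := L.F.r o.y % L.N

/-- The weight of a vertex: degree plus one. -/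
def wt (G : List WE) (u : ℕ) : ℕ := G.countP (fun e => e.1 = u) + G.countP (fun e => e.2.1 = u) + 1

/-- The volume of a cluster. -/
def vol (G : List WE) (C : Cl) : ℕ := (C.vs.map (wt G)).sum

/-- The input: vertices, edges (the names are items), clusters with their scales. -/
structure In (ta hd len : ℕ → ℕ) (N J : ℕ) (R : ℕ → ℕ) (vs : List ℕ) (G : List WE)
    (cs : List (ℕ × Cl)) : Prop where
  nd : vs.Nodup
  lt : ∀ v ∈ vs, v < N
  ed : ∀ e ∈ G, e.1 ∈ vs ∧ e.2.1 ∈ vs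
  it : ∀ e ∈ G, ta e.2.2.2 = e.1 ∧ hd e.2.2.2 = e.2.1 ∧ len e.2.2.2 = e.2.2.1
  ids : (G.map fun e => e.2.2.2).Nodup
  cl : ∀ p ∈ cs, (∀ v ∈ p.2.vs, v ∈ vs) ∧
    ∃ D, TL G p.2.1 D p.2.2 ∧ D p.2.1 = 0 ∧ ∀ v ∈ p.2.vs, D v ≤ R p.1
  few : ∀ u, cs.countP (fun p => u ∈ p.2.vs) ≤ J

/-- `u` is a vertex of the cluster number `j`. -/
def Mem (cs : List (ℕ × Cl)) (j u : ℕ) : Prop := ∃ p, cs[j]? = some p ∧ u ∈ p.2.vs

/-- The object of an edge inside the cluster `j`. -/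
def kap (L : LV) (e : WE) (j : ℕ) : Ob :=
  ⟨L.sc.get j, none, j * L.N + e.1, some (e.2.2.2, true), L.F.r (j * L.N + e.1), j * L.N + e.2.1⟩
/-- The object of a vertex in two heavy clusters. -/
def lam (L : LV) (u j j' : ℕ) : Ob :=
  ⟨L.sc.get j', none, j * L.N + u, none, L.F.r (j * L.N + u), j' * L.N + u⟩
/-- The object of a vertex in a light cluster `j` and a cluster `j'` of the next scale. -/
def mu (L : LV) (u j j' : ℕ) : Ob :=
  ⟨L.sc.get j', some j, j' * L.N + u, none, j * L.N + u, j' * L.N + L.ctr.get j⟩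

/-- The condition for the object of an edge. -/
def KapC (P : ℕ → ℕ) (cs : List (ℕ × Cl)) (L : LV) (e : WE) (j : ℕ) : Prop :=
  Mem cs j e.1 ∧ Mem cs j e.2.1 ∧ 1 ≤ L.sc.get j ∧ P (L.sc.get j - 1) ≤ e.2.2.1 ∧
    e.2.2.1 ≤ P (L.sc.get j)

/-- The condition for the objects of pairs of clusters. -/
def PrC (cs : List (ℕ × Cl)) (L : LV) (u j j' : ℕ) : Prop :=
  Mem cs j u ∧ Mem cs j' u ∧ Mem cs j' (L.ctr.get j) ∧ L.sc.get j' = L.sc.get j + 1

/-- The specification of the static part of a level. -/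
structure LvOK (ta hd len : ℕ → ℕ) (N k J : ℕ) (P R : ℕ → ℕ) (vs : List ℕ) (G : List WE)
    (cs : List (ℕ × Cl)) (L : LV) : Prop where
  N_eq : L.N = N
  -- clusters
  mem : ∀ a, L.mem.get a = true ↔ Mem cs (a / N) (a % N)
  info : ∀ j p, cs[j]? = some p → L.sc.get j = p.1 ∧ L.ctr.get j = p.2.1 ∧
    (L.hv.get j = true ↔ k ≤ vol G p.2)
  cls : ∀ u j, j ∈ L.cls.get u ↔ Mem cs j u
  cls_nd : ∀ u, (L.cls.get u).Nodup
  cls_len : ∀ u, (L.cls.get u).length ≤ J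
  -- forest
  fo : ∀ a, (L.F.sp.get a = [] ∧ L.F.r a = a) ∨
    (L.F.sp.get a = a :: L.F.sp.get (L.F.par.get a) ∧ L.F.r a = L.F.r (L.F.par.get a) ∧
      L.mem.get a = true ∧ L.mem.get (L.F.par.get a) = true ∧ L.F.par.get a / N = a / N ∧
      (∃ e ∈ G, e.2.2.2 = (L.F.te.get a).1) ∧ src ta hd (L.F.te.get a) = a % N ∧
      dst ta hd (L.F.te.get a) = L.F.par.get a % N)
  wk : ∀ a, L.F.wk.get a = (L.F.sp.get a).map L.F.te.get
  walk : ∀ a, IW ta hd (a % N) (L.F.wk.get a) (L.F.r a % N)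
  sp_len : ∀ a, (L.F.sp.get a).length ≤ k
  wk_len : ∀ a, nsum len (L.F.wk.get a) ≤ R (L.sc.get (a / N))
  sp_mem : ∀ a, ∀ v ∈ L.F.sp.get a, L.mem.get v = true ∧ v / N = a / N ∧ L.F.r v = L.F.r a ∧
    L.F.sp.get v ≠ []
  r_mem : ∀ a, L.F.r a / N = a / N ∧ L.F.sp.get (L.F.r a) = [] ∧
    (L.mem.get a = true → L.mem.get (L.F.r a) = true)
  light : ∀ a, L.mem.get a = true → L.hv.get (a / N) = false → L.F.r a % N = L.ctr.get (a / N)
  ns : ∀ a, a ∈ L.ns ↔ L.F.sp.get a ≠ []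
  ns_nd : L.ns.Nodup
  ns_len : L.ns.length ≤ J * vs.length
  ns_te : ∀ z, L.ns.countP (fun a => (L.F.te.get a).1 = z) ≤ 2 * J
  -- objects
  obs : ∀ o, o ∈ L.obs ↔ (∃ e ∈ G, ∃ j, KapC P cs L e j ∧ o = kap L e j) ∨
    (∃ u j j', PrC cs L u j j' ∧ L.hv.get j = true ∧ L.hv.get j' = true ∧ o = lam L u j j') ∨
    ∃ u j j', PrC cs L u j j' ∧ L.hv.get j = false ∧ o = mu L u j j'
  hv_sub : ∀ j j', (∀ u, Mem cs j u → Mem cs j' u) → L.hv.get j = true → L.hv.get j' = true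
  owalk : ∀ o ∈ L.obs, IW ta hd (L.a0 o) (L.F.W o) (L.b0 o)
  olen : ∀ o ∈ L.obs, 1 ≤ o.sc ∧ nsum len (L.F.W o) ≤ 2 * R o.sc + R (o.sc - 1) + P o.sc ∧
    (L.F.W o).length ≤ 3 * k + 1 ∧ ∀ c ∈ L.F.W o, ∃ e ∈ G, e.2.2.2 = c.1
  obs_len : L.obs.length ≤ J * G.length + J ^ 2 * vs.length
  ends : ∀ T : Finset (ℕ × ℕ), (∀ p ∈ T, ∃ o ∈ L.obs, L.a0 o ≠ L.b0 o ∧ p.1 = o.sc ∧
    (p.2 = L.a0 o ∨ p.2 = L.b0 o)) → k * T.card ≤ 4 * J * (vs.length + 2 * G.length)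
  load : ∀ a, L.obs.countP (fun o => a ∈ L.F.sp.get o.x ∨ a ∈ L.F.sp.get o.z ∨
    a ∈ L.F.sp.get o.y) ≤ 5 * (J + 1) ^ 3 * (k + 1) ^ 2
  load_eo : ∀ z, L.obs.countP (fun o => o.eo.map Prod.fst = some z) ≤ J
  load_tr : ∀ j, L.obs.countP (fun o => o.tr = some j) ≤ J ^ 2 * k

/-! ### Representations -/

/-- Encoding. -/
def Ob.enc (o : Ob) := (o.sc, o.tr, o.x, o.eo, o.z, o.y)
instance : Rep Ob := Rep.comap Ob.enc
@[fun_prop] theorem Ob.p_sc : Pure Ob.sc := Pure.of_comap Ob.enc (h := fun p => p.1) (by fun_prop)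
@[fun_prop] theorem Ob.p_tr : Pure Ob.tr := Pure.of_comap Ob.enc (h := fun p => p.2.1) (by fun_prop)
@[fun_prop] theorem Ob.p_x : Pure Ob.x := Pure.of_comap Ob.enc (h := fun p => p.2.2.1) (by fun_prop)
@[fun_prop] theorem Ob.p_eo : Pure Ob.eo :=
  Pure.of_comap Ob.enc (h := fun p => p.2.2.2.1) (by fun_prop)
@[fun_prop] theorem Ob.p_z : Pure Ob.z :=
  Pure.of_comap Ob.enc (h := fun p => p.2.2.2.2.1) (by fun_prop)
@[fun_prop] theorem Ob.p_y : Pure Ob.y :=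
  Pure.of_comap Ob.enc (h := fun p => p.2.2.2.2.2) (by fun_prop)
@[fun_prop] theorem Ob.p_mk {α : Type} [Rep α] {a : α → ℕ} {b : α → Option ℕ} {c : α → ℕ}
    {d : α → Option SI} {e f : α → ℕ} (ha : Pure a) (hb : Pure b) (hc : Pure c) (hd : Pure d)
    (he : Pure e) (hf : Pure f) : Pure fun x => Ob.mk (a x) (b x) (c x) (d x) (e x) (f x) :=
  Pure.to_comap Ob.enc (by unfold Ob.enc; fun_prop)

/-- Encoding. -/
def Fo.enc (F : Fo) := (F.par, F.te, F.sp, F.wk, F.rt)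
instance : Rep Fo := Rep.comap Fo.enc
@[fun_prop] theorem Fo.p_par : Pure Fo.par := Pure.of_comap Fo.enc (h := fun p => p.1) (by fun_prop)
@[fun_prop] theorem Fo.p_te : Pure Fo.te := Pure.of_comap Fo.enc (h := fun p => p.2.1) (by fun_prop)
@[fun_prop] theorem Fo.p_sp : Pure Fo.sp :=
  Pure.of_comap Fo.enc (h := fun p => p.2.2.1) (by fun_prop)
@[fun_prop] theorem Fo.p_wk : Pure Fo.wk :=
  Pure.of_comap Fo.enc (h := fun p => p.2.2.2.1) (by fun_prop)
@[fun_prop] theorem Fo.p_rt : Pure Fo.rt :=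
  Pure.of_comap Fo.enc (h := fun p => p.2.2.2.2) (by fun_prop)
@[fun_prop] theorem Fo.p_mk {α : Type} [Rep α] {a : α → Arr ℕ} {b : α → Arr SI}
    {c : α → Arr (List ℕ)} {d : α → Arr (List SI)} {e : α → Arr (Option ℕ)} (ha : Pure a)
    (hb : Pure b) (hc : Pure c) (hd : Pure d) (he : Pure e) :
    Pure fun x => Fo.mk (a x) (b x) (c x) (d x) (e x) :=
  Pure.to_comap Fo.enc (by unfold Fo.enc; fun_prop)
@[fun_prop] theorem Fo.p_r {α : Type} [Rep α] {F : α → Fo} {x : α → ℕ} (hF : Pure F)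
    (hx : Pure x) : Pure fun a => (F a).r (x a) := by unfold Fo.r; fun_prop

/-- Encoding. -/
def LV.enc (L : LV) := (L.N, L.F, L.mem, L.sc, L.ctr, L.hv, L.cls, L.ns, L.obs)
instance : Rep LV := Rep.comap LV.enc
@[fun_prop] theorem LV.p_N : Pure LV.N := Pure.of_comap LV.enc (h := fun p => p.1) (by fun_prop)
@[fun_prop] theorem LV.p_F : Pure LV.F := Pure.of_comap LV.enc (h := fun p => p.2.1) (by fun_prop)
@[fun_prop] theorem LV.p_mem : Pure LV.mem :=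
  Pure.of_comap LV.enc (h := fun p => p.2.2.1) (by fun_prop)
@[fun_prop] theorem LV.p_sc : Pure LV.sc :=
  Pure.of_comap LV.enc (h := fun p => p.2.2.2.1) (by fun_prop)
@[fun_prop] theorem LV.p_ctr : Pure LV.ctr :=
  Pure.of_comap LV.enc (h := fun p => p.2.2.2.2.1) (by fun_prop)
@[fun_prop] theorem LV.p_hv : Pure LV.hv :=
  Pure.of_comap LV.enc (h := fun p => p.2.2.2.2.2.1) (by fun_prop)
@[fun_prop] theorem LV.p_cls : Pure LV.cls :=
  Pure.of_comap LV.enc (h := fun p => p.2.2.2.2.2.2.1) (by fun_prop)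
@[fun_prop] theorem LV.p_ns : Pure LV.ns :=
  Pure.of_comap LV.enc (h := fun p => p.2.2.2.2.2.2.2.1) (by fun_prop)
@[fun_prop] theorem LV.p_obs : Pure LV.obs :=
  Pure.of_comap LV.enc (h := fun p => p.2.2.2.2.2.2.2.2) (by fun_prop)
@[fun_prop] theorem LV.p_mk {α : Type} [Rep α] {a : α → ℕ} {b : α → Fo} {c : α → Arr Bool}
    {d e : α → Arr ℕ} {f : α → Arr Bool} {g : α → Arr (List ℕ)} {h : α → List ℕ}
    {i : α → List Ob} (ha : Pure a) (hb : Pure b) (hc : Pure c) (hd : Pure d) (he : Pure e)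
    (hf : Pure f) (hg : Pure g) (hh : Pure h) (hi : Pure i) :
    Pure fun x => LV.mk (a x) (b x) (c x) (d x) (e x) (f x) (g x) (h x) (i x) :=
  Pure.to_comap LV.enc (by unfold LV.enc; fun_prop)
@[fun_prop] theorem LV.p_a0 {α : Type} [Rep α] {L : α → LV} {o : α → Ob} (hL : Pure L)
    (ho : Pure o) : Pure fun a => (L a).a0 (o a) := by unfold LV.a0; fun_prop
@[fun_prop] theorem LV.p_b0 {α : Type} [Rep α] {L : α → LV} {o : α → Ob} (hL : Pure L)
    (ho : Pure o) : Pure fun a => (L a).b0 (o a) := by unfold LV.b0; fun_prop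

/-- The statement: input `(N, k, P, vs, G, cs)`. -/
def LEVEL : Prop := ∃ f : ℕ × ℕ × Arr ℕ × List ℕ × List WE × List (ℕ × Cl) → M LV, Impl f ∧
  ∀ (c : Cx) (ta hd len : ℕ → ℕ) (N k J : ℕ) (P : Arr ℕ) (R : ℕ → ℕ) (vs : List ℕ) (G : List WE)
    (cs : List (ℕ × Cl)), In ta hd len N J R vs G cs → 1 ≤ k → (cs.length + 1) * N ≤ c.B →
    cs.length ≤ c.B → Tri c (f (N, k, P, vs, G, cs)) fun L t =>
      LvOK ta hd len N k J P.get R vs G cs L ∧ t ≤ 40 * (J + 1) ^ 2 * (vs.length + G.length + 1)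

end Vale.Agent.P305U
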