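import Vale.Agent.P305U.Cut

/-!
# The forest of a level
-/

namespace Vale.Agent.P305U

open Vale.Agent.P305E Vale.Agent.P305CV Vale.Agent.P305W Vale.Agent.P305Q

/-- All nodes. -/
def nds (N : ℕ) (cs : List (ℕ × Cl)) : List ℕ :=
  cs.zipIdx.flatMap fun q => q.1.2.vs.map fun v => q.2 * N + v

/-- The record of a vertex of the cluster number `j`. -/
def ren (N j : ℕ) (r : Rec) : Rc :=
  (j * N + r.1, j * N + r.2.1, r.2.2.2.2.2, decide (r.2.2.1 = r.1))

/-- All records. -/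
def rcs (N : ℕ) (cs : List (ℕ × Cl)) : List Rc :=
  cs.zipIdx.flatMap fun q => q.1.2.2.map (ren N q.2)

theorem ix_div {N j v : ℕ} (h : v < N) : (j * N + v) / N = j := by
  rw [Nat.add_comm, Nat.add_mul_div_right _ _ (by omega), Nat.div_eq_of_lt h, Nat.zero_add]

theorem ix_mod {N j v : ℕ} (h : v < N) : (j * N + v) % N = v := by
  rw [Nat.add_comm, Nat.add_mul_mod_self_right, Nat.mod_eq_of_lt h]

theorem par_mem {G : List WE} {c : ℕ} {D : ℕ → ℕ} : ∀ {l : List Rec}, TL G c D l →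
    ∀ r ∈ l, r.2.1 ∈ Cl.vs (c, l) ∧ r.2.2 ∈ G ∧ Jn r.2.2 r.2.1 r.1 ∧
      D r.1 = D r.2.1 + r.2.2.2.2.1 ∧ r.2.1 ≠ r.1
  | [], _, _, h => by simp at h
  | q :: l, h, r, hr => by
    rcases List.mem_cons.1 hr with rfl | hr
    · exact ⟨mem_vs_cons.2 (Or.inr h.2.2.1), h.2.2.2.1, h.2.2.2.2.1, h.2.2.2.2.2,
        fun e => h.2.1 (e ▸ h.2.2.1)⟩
    · have := par_mem h.1 r hr
      exact ⟨mem_vs_cons.2 (Or.inr this.1), this.2⟩

theorem tl_pair {G : List WE} {c : ℕ} {D : ℕ → ℕ} : ∀ {l : List Rec}, TL G c D l →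
    l.Pairwise fun r q => q.1 ≠ r.1 ∧ q.2.1 ≠ r.1
  | [], _ => .nil
  | _ :: _, h => List.pairwise_cons.2 ⟨fun q hq =>
      ⟨fun e => h.2.1 (e ▸ List.mem_cons_of_mem _ (List.mem_map_of_mem hq)),
        fun e => h.2.1 (e ▸ (par_mem h.1 q hq).1)⟩, tl_pair h.1⟩

theorem fst_mem_vs {C : Cl} {r : Rec} (h : r ∈ C.2) : r.1 ∈ C.vs :=
  List.mem_cons_of_mem _ (List.mem_map_of_mem h)

theorem zip_pair {α : Type} (l : List α) : l.zipIdx.Pairwise fun q q' => q.2 ≠ q'.2 := by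
  have h : (l.zipIdx.map Prod.snd).Nodup := by rw [List.zipIdx_map_snd]; exact List.nodup_range'
  exact List.pairwise_map.1 h

theorem countP_flatMap_le {α β : Type} {l : List α} {f : α → List β} {p : β → Bool} {q : α → Bool}
    {J : ℕ} (h0 : ∀ x ∈ l, ∀ y ∈ f x, p y = true → q x = true)
    (h1 : ∀ x ∈ l, (f x).countP p ≤ J) : (l.flatMap f).countP p ≤ J * l.countP q := by
  induction l with
  | nil => simp
  | cons x l ih =>
    have := ih (fun x hx => h0 x (List.mem_cons_of_mem _ hx))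
      fun x hx => h1 x (List.mem_cons_of_mem _ hx)
    rw [List.flatMap_cons, List.countP_append, List.countP_cons]
    split_ifs with h
    · have := h1 x List.mem_cons_self
      nlinarith
    · rw [List.countP_eq_zero.2 fun y hy hp => h (h0 x List.mem_cons_self y hy hp)]
      simpa using this

theorem countP_le_sum {α : Type} (l : List α) (f : α → ℕ) (U : Finset ℕ) :
    l.countP (fun x => f x ∈ U) = ∑ u ∈ U, l.countP fun x => f x = u := by
  induction l with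
  | nil => simp
  | cons x l ih => simp [List.countP_cons, ih, Finset.sum_add_distrib]

theorem countP_nodup {l : List ℕ} (h : l.Nodup) (u : ℕ) : l.countP (fun x => x = u) ≤ 1 := by
  have := List.nodup_iff_count_le_one.1 h u
  rwa [List.count_eq_countP] at this

theorem sum_biUnion_le {s : Finset ℕ} {t : ℕ → Finset ℕ} {f : ℕ → ℕ} {c : ℕ}
    (h : ∀ i ∈ s, ∑ x ∈ t i, f x ≤ c) : ∑ x ∈ s.biUnion t, f x ≤ s.card * c := by
  induction s using Finset.induction_on with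
  | empty => simp
  | insert i s hi ih =>
    have h1 := ih fun j hj => h j (Finset.mem_insert_of_mem hj)
    have h2 := h i (Finset.mem_insert_self _ _)
    have h3 := Finset.sum_union_inter (s₁ := t i) (s₂ := s.biUnion t) (f := f)
    rw [Finset.biUnion_insert, Finset.card_insert_of_notMem hi]
    nlinarith [Nat.zero_le (∑ x ∈ t i ∩ s.biUnion t, f x)]

theorem sum_wt (G : List WE) (U : Finset ℕ) : ∑ u ∈ U, wt G u ≤ U.card + 2 * G.length := by
  have h1 := List.countP_le_length (p := fun e : WE => e.1 ∈ U) (l := G)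
  have h2 := List.countP_le_length (p := fun e : WE => e.2.1 ∈ U) (l := G)
  rw [countP_le_sum G (fun e => e.1)] at h1
  rw [countP_le_sum G (fun e => e.2.1)] at h2
  simp only [wt, Finset.sum_add_distrib, Finset.sum_const, smul_eq_mul, mul_one]
  omega

variable {ta hd len : ℕ → ℕ} {N k J : ℕ} {R : ℕ → ℕ} {vs : List ℕ} {G : List WE}
  {cs : List (ℕ × Cl)}

namespace In

theorem vlt (h : In ta hd len N J R vs G cs) {j : ℕ} {p : ℕ × Cl} (hp : cs[j]? = some p) {v : ℕ}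
    (hv : v ∈ p.2.vs) : v < N := h.lt v ((h.cl p (List.mem_of_getElem? hp)).1 v hv)

theorem mlt (h : In ta hd len N J R vs G cs) {j v : ℕ} (hv : Mem cs j v) : v < N :=
  h.vlt hv.choose_spec.1 hv.choose_spec.2

theorem mvs (h : In ta hd len N J R vs G cs) {j v : ℕ} (hv : Mem cs j v) : v ∈ vs :=
  (h.cl _ (List.mem_of_getElem? hv.choose_spec.1)).1 v hv.choose_spec.2

theorem vnd (h : In ta hd len N J R vs G cs) {p : ℕ × Cl} (hp : p ∈ cs) : p.2.vs.Nodup :=
  (h.cl p hp).2.choose_spec.1.nodup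

theorem mem_nds (h : In ta hd len N J R vs G cs) {a : ℕ} :
    a ∈ nds N cs ↔ Mem cs (a / N) (a % N) := by
  simp only [nds, List.mem_flatMap, List.mem_map, List.mem_zipIdx_iff_getElem?]
  constructor
  · rintro ⟨q, hq, v, hv, rfl⟩
    rw [ix_div (h.vlt hq hv), ix_mod (h.vlt hq hv)]
    exact ⟨q.1, hq, hv⟩
  · rintro ⟨p, hp, hv⟩
    exact ⟨(p, a / N), hp, _, hv, Nat.div_add_mod' a N⟩

theorem nds_nodup (h : In ta hd len N J R vs G cs) : (nds N cs).Nodup := by
  refine List.nodup_flatMap.2 ⟨fun q hq => ?_, (zip_pair cs).imp_of_mem fun {q q'} hq hq' hne => ?_⟩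
  · exact (h.vnd (List.mem_of_getElem? (List.mem_zipIdx_iff_getElem?.1 hq))).map
      fun _ _ e => Nat.add_left_cancel e
  · intro a ha ha'
    obtain ⟨v, hv, rfl⟩ := List.mem_map.1 ha
    obtain ⟨v', hv', e⟩ := List.mem_map.1 ha'
    have := congrArg (· / N) e
    simp only [ix_div (h.vlt (List.mem_zipIdx_iff_getElem?.1 hq) hv),
      ix_div (h.vlt (List.mem_zipIdx_iff_getElem?.1 hq') hv')] at this
    exact hne this.symm

theorem nds_count (h : In ta hd len N J R vs G cs) (u : ℕ) :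
    (nds N cs).countP (fun a => a % N = u) ≤ J := by
  have h1 := countP_flatMap_le (l := cs.zipIdx) (f := fun q => q.1.2.vs.map fun v => q.2 * N + v)
    (p := fun a => a % N = u) (q := fun q => u ∈ q.1.2.vs) (J := 1) (fun q hq a ha hp => by
      obtain ⟨v, hv, rfl⟩ := List.mem_map.1 ha
      rw [ix_mod (h.vlt (List.mem_zipIdx_iff_getElem?.1 hq) hv), decide_eq_true_eq] at hp
      simpa [← hp] using hv) fun q hq => by
      have hq' := List.mem_zipIdx_iff_getElem?.1 hq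
      rw [List.countP_map]
      refine (List.countP_mono_left fun v hv hp => ?_).trans
        (countP_nodup (h.vnd (List.mem_of_getElem? hq')) u)
      simpa [ix_mod (h.vlt hq' hv)] using hp
  have h2 := h.few u
  rw [← List.zipIdx_map_fst 0 cs, List.countP_map] at h2
  exact h1.trans (by simpa [Function.comp_def] using h2)

theorem sum_nds (h : In ta hd len N J R vs G cs) (f : ℕ → ℕ) :
    ∑ a ∈ (nds N cs).toFinset, f (a % N) ≤ J * ∑ u ∈ vs.toFinset, f u := by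
  rw [← Finset.sum_fiberwise_of_maps_to (g := fun a => a % N) (t := vs.toFinset)
    fun a ha => List.mem_toFinset.2 (h.mvs (h.mem_nds.1 (List.mem_toFinset.1 ha))), Finset.mul_sum]
  refine Finset.sum_le_sum fun u _ => ?_
  rw [Finset.sum_congr rfl fun a ha => congrArg f (Finset.mem_filter.1 ha).2, Finset.sum_const,
    smul_eq_mul]
  refine Nat.mul_le_mul_right _ (le_trans ?_ (h.nds_count u))
  rw [List.countP_eq_length_filter, ← List.toFinset_card_of_nodup (h.nds_nodup.filter _),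
    List.toFinset_filter]
  simp

theorem nds_len (h : In ta hd len N J R vs G cs) : (nds N cs).length ≤ J * vs.length := by
  simpa [List.toFinset_card_of_nodup h.nds_nodup, List.toFinset_card_of_nodup h.nd] using
    h.sum_nds fun _ => 1

theorem mem_rcs {r : Rc} : r ∈ rcs N cs ↔
    ∃ j p q, cs[j]? = some p ∧ q ∈ p.2.2 ∧ r = ren N j q := by
  simp only [rcs, List.mem_flatMap, List.mem_map, List.mem_zipIdx_iff_getElem?]
  exact ⟨fun ⟨q, h1, r', h2, e⟩ => ⟨q.2, q.1, r', h1, h2, e.symm⟩,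
    fun ⟨j, p, q, h1, h2, e⟩ => ⟨(p, j), h1, q, h2, e.symm⟩⟩

theorem rc_facts (h : In ta hd len N J R vs G cs) {r : Rc} (hr : r ∈ rcs N cs) :
    Mem cs (r.1 / N) (r.1 % N) ∧ Mem cs (r.2.1 / N) (r.2.1 % N) ∧ r.2.1 / N = r.1 / N ∧
      (∃ e ∈ G, e.2.2.2 = r.2.2.1) ∧ src ta hd r.2.2 = r.1 % N ∧ dst ta hd r.2.2 = r.2.1 % N ∧
      r.2.1 ≠ r.1 ∧ ∀ p D, cs[r.1 / N]? = some p → TL G p.2.1 D p.2.2 →
        D (r.1 % N) = D (r.2.1 % N) + len r.2.2.1 := by
  obtain ⟨j, p, q, hp, hq, rfl⟩ := mem_rcs.1 hr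
  obtain ⟨D, hD, -⟩ := (h.cl p (List.mem_of_getElem? hp)).2
  obtain ⟨h1, h2, h3, -, h5⟩ := par_mem hD q hq
  have a := h.vlt hp (fst_mem_vs hq)
  have b := h.vlt hp h1
  obtain ⟨i1, i2, i3⟩ := h.it _ h2
  simp only [ren, ix_div a, ix_div b, ix_mod a, ix_mod b, src, dst, i1, i2, i3]
  refine ⟨⟨p, hp, fst_mem_vs hq⟩, ⟨p, hp, h1⟩, trivial, ⟨_, h2, rfl⟩, ?_, ?_, by omega,
    fun p' D' hp' hD' => ?_⟩
  · rcases h3 with ⟨h3, h4⟩ | ⟨h3, h4⟩ <;> simp [h3, h4]
  · rcases h3 with ⟨h3, h4⟩ | ⟨h3, h4⟩ <;> simp [h3, h4, h5]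
  · obtain rfl : p = p' := Option.some.inj (hp.symm.trans hp')
    exact (par_mem hD' q hq).2.2.2.1

theorem fl (h : In ta hd len N J R vs G cs) : FL (rcs N cs) := by
  refine ⟨List.pairwise_flatMap.2 ⟨fun q hq => ?_,
    (zip_pair cs).imp_of_mem fun {q q'} hq hq' hne r hr r' hr' => ?_⟩,
    fun r hr => (h.rc_facts hr).2.2.2.2.2.2.1⟩
  · obtain ⟨D, hD, -⟩ := (h.cl _ (List.mem_of_getElem? (List.mem_zipIdx_iff_getElem?.1 hq))).2
    exact List.pairwise_map.2 ((tl_pair hD).imp fun h => by simpa [ren] using h)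
  · have h1 := List.mem_zipIdx_iff_getElem?.1 hq
    have h2 := List.mem_zipIdx_iff_getElem?.1 hq'
    obtain ⟨s, hs, rfl⟩ := List.mem_map.1 hr
    obtain ⟨s', hs', rfl⟩ := List.mem_map.1 hr'
    have h3 := (h.rc_facts (mem_rcs.2 ⟨_, _, _, h2, hs', rfl⟩)).2.2.1
    have h4 : (ren N q.2 s).1 / N = q.2 := ix_div (h.vlt h1 (fst_mem_vs hs))
    have h5 : (ren N q'.2 s').1 / N = q'.2 := ix_div (h.vlt h2 (fst_mem_vs hs'))
    exact ⟨fun e => hne (by rw [← h4, ← e, h5]), fun e => hne (by rw [← h4, ← e, h3, h5])⟩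

theorem fst_nds (h : In ta hd len N J R vs G cs) {a : ℕ} (ha : a ∈ (rcs N cs).map Prod.fst) :
    a ∈ nds N cs := by
  obtain ⟨r, hr, rfl⟩ := List.mem_map.1 ha
  exact h.mem_nds.2 (h.rc_facts hr).1

theorem sum_vol (h : In ta hd len N J R vs G cs) {j : ℕ} {p : ℕ × Cl} (hp : cs[j]? = some p)
    {S : Finset ℕ} (hS : ∀ u ∈ S, Mem cs j u) : ∑ u ∈ S, wt G u ≤ vol G p.2 := by
  rw [vol, ← List.sum_toFinset _ (h.vnd (List.mem_of_getElem? hp))]
  refine Finset.sum_le_sum_of_subset fun u hu => ?_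
  obtain ⟨p', hp', hu'⟩ := hS u hu
  obtain rfl : p = p' := Option.some.inj (hp.symm.trans hp')
  exact List.mem_toFinset.2 hu'

end In

/-- What the program establishes directly. -/
structure Raw (N k : ℕ) (G : List WE) (cs : List (ℕ × Cl)) (L : LV) : Prop where
  N_eq : L.N = N
  mem : ∀ a, L.mem.get a = true ↔ a ∈ nds N cs
  info : ∀ j p, cs[j]? = some p → L.sc.get j = p.1 ∧ L.ctr.get j = p.2.1 ∧
    (L.hv.get j = true ↔ k ≤ vol G p.2)
  hv_lt : ∀ j, L.hv.get j = true → ∃ p, cs[j]? = some p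
  cls : ∀ u, L.cls.get u = (((nds N cs).filter fun a => a % N = u).map (· / N)).reverse
  fo : ∃ w : ℕ → ℕ, (∀ a ∈ nds N cs, w a = min k (wt G (a % N))) ∧ FoOK k w (rcs N cs) L.F
  ns : L.ns = (nds N cs).filter fun a => !(L.F.sp.get a).isEmpty

namespace Raw

variable {L : LV} (h : In ta hd len N J R vs G cs) (H : Raw N k G cs L)
include h H

theorem mem' (a : ℕ) : L.mem.get a = true ↔ Mem cs (a / N) (a % N) := (H.mem a).trans h.mem_nds

theorem mem_ix {j v : ℕ} (hv : v < N) : L.mem.get (j * N + v) = true ↔ Mem cs j v := by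
  rw [H.mem' h, ix_div hv, ix_mod hv]

theorem cls' (u j : ℕ) : j ∈ L.cls.get u ↔ Mem cs j u := by
  simp only [H.cls, List.mem_reverse, List.mem_map, List.mem_filter, decide_eq_true_eq, h.mem_nds]
  constructor
  · rintro ⟨a, ⟨h1, rfl⟩, rfl⟩
    exact h1
  · intro hm
    have := h.mlt hm
    exact ⟨j * N + u, ⟨by rwa [ix_div this, ix_mod this], ix_mod this⟩, ix_div this⟩

theorem cls_nd (u : ℕ) : (L.cls.get u).Nodup := by
  rw [H.cls, List.nodup_reverse]
  refine (h.nds_nodup.filter _).map_on fun a ha b hb e => ?_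
  rw [List.mem_filter, decide_eq_true_eq] at ha hb
  rw [← Nat.div_add_mod' a N, ← Nat.div_add_mod' b N, e, ha.2, hb.2]

theorem cls_len (u : ℕ) : (L.cls.get u).length ≤ J := by
  rw [H.cls, List.length_reverse, List.length_map, ← List.countP_eq_length_filter]
  exact h.nds_count u

theorem fo' (a : ℕ) : (L.F.sp.get a = [] ∧ L.F.r a = a) ∨
    (L.F.sp.get a = a :: L.F.sp.get (L.F.par.get a) ∧ L.F.r a = L.F.r (L.F.par.get a) ∧
      L.mem.get a = true ∧ L.mem.get (L.F.par.get a) = true ∧ L.F.par.get a / N = a / N ∧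
      (∃ e ∈ G, e.2.2.2 = (L.F.te.get a).1) ∧ src ta hd (L.F.te.get a) = a % N ∧
      dst ta hd (L.F.te.get a) = L.F.par.get a % N) := by
  obtain ⟨w, -, f⟩ := H.fo
  by_cases e : L.F.sp.get a = []
  · exact Or.inl ⟨e, (f.stop a e).2⟩
  · obtain ⟨h1, h2, -, h3⟩ := f.step a e
    obtain ⟨a1, a2, a3, a4, a5, a6, -⟩ := h.rc_facts h1
    exact Or.inr ⟨h2, h3, (H.mem' h _).2 a1, (H.mem' h _).2 a2, a3, a4, a5, a6⟩

theorem walk (a : ℕ) : IW ta hd (a % N) (L.F.wk.get a) (L.F.r a % N) := by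
  obtain ⟨w, -, f⟩ := H.fo
  refine f.ind (P := fun a => IW ta hd (a % N) (L.F.wk.get a) (L.F.r a % N)) (fun a e => ?_)
    (fun a e ih => ?_) a
  · simp [(f.stop a e).1, (f.stop a e).2]
  · obtain ⟨h1, -, h2, h3⟩ := f.step a e
    obtain ⟨-, -, -, -, a5, a6, -⟩ := h.rc_facts h1
    rw [h2, h3]
    exact ⟨a5, by rw [a6]; exact ih⟩

theorem sp_len (hk : 1 ≤ k) (a : ℕ) : (L.F.sp.get a).length ≤ k := by
  obtain ⟨w, hw, f⟩ := H.fo
  refine f.sp_len (fun x hx => ?_) a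
  rw [hw x (h.fst_nds hx), wt]
  omega

theorem wk_len (a : ℕ) : nsum len (L.F.wk.get a) ≤ R (L.sc.get (a / N)) := by
  obtain ⟨w, -, f⟩ := H.fo
  by_cases e : L.F.sp.get a = []
  · simp [(f.stop a e).1]
  obtain ⟨p, hp, hv⟩ := (h.rc_facts (f.step a e).1).1
  obtain ⟨D, hD, -, hR⟩ := (h.cl p (List.mem_of_getElem? hp)).2
  rw [(H.info _ p hp).1]
  refine le_trans ?_ (hR _ hv)
  refine f.ind (P := fun a => cs[a / N]? = some p → nsum len (L.F.wk.get a) ≤ D (a % N))
    (fun a e _ => ?_) (fun a e ih hp => ?_) a hp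
  · simp [(f.stop a e).1]
  · obtain ⟨h1, -, h2, -⟩ := f.step a e
    obtain ⟨-, -, a3, -, -, -, -, a8⟩ := h.rc_facts h1
    have := ih (by rw [← hp]; exact congrArg _ a3)
    rw [h2, nsum_cons, a8 p D hp hD]
    dsimp only
    omega

theorem r_mem (a : ℕ) : L.F.r a / N = a / N ∧ L.F.sp.get (L.F.r a) = [] ∧
    (L.mem.get a = true → L.mem.get (L.F.r a) = true) := by
  obtain ⟨w, -, f⟩ := H.fo
  refine f.ind (P := fun a => L.F.r a / N = a / N ∧ L.F.sp.get (L.F.r a) = [] ∧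
    (L.mem.get a = true → L.mem.get (L.F.r a) = true)) (fun a e => ?_) (fun a e ih => ?_) a
  · simp [(f.stop a e).2, e]
  · obtain ⟨h1, -, -, h3⟩ := f.step a e
    obtain ⟨-, a2, a3, -⟩ := h.rc_facts h1
    rw [h3]
    exact ⟨ih.1.trans a3, ih.2.1, fun _ => ih.2.2 ((H.mem' h _).2 a2)⟩

theorem sp_mem (a : ℕ) : ∀ v ∈ L.F.sp.get a, L.mem.get v = true ∧ v / N = a / N ∧
    L.F.r v = L.F.r a ∧ L.F.sp.get v ≠ [] := fun v hv => by
  obtain ⟨w, -, f⟩ := H.fo
  have h1 := (f.sp_suffix a v hv).2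
  exact ⟨(H.mem v).2 (h.fst_nds (f.fst_mem (f.mem_sp a v hv))),
    by rw [← (H.r_mem h v).1, h1, (H.r_mem h a).1], h1, f.mem_sp a v hv⟩

theorem light_sum {j : ℕ} (hj : L.hv.get j = false) (hk : 1 ≤ k) {S : Finset ℕ}
    (hS : ∀ u ∈ S, Mem cs j u) : ∑ u ∈ S, wt G u < k := by
  rcases S.eq_empty_or_nonempty with rfl | ⟨u, hu⟩
  · exact hk
  obtain ⟨p, hp, -⟩ := hS u hu
  have h1 := (H.info j p hp).2.2
  rw [hj] at h1
  exact (h.sum_vol hp hS).trans_lt (by simpa using h1)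

theorem root_or {a : ℕ} (ha : L.mem.get a = true) :
    a % N = L.ctr.get (a / N) ∨ a ∈ (rcs N cs).map Prod.fst := by
  obtain ⟨p, hp, hv⟩ := (H.mem' h a).1 ha
  rcases List.mem_cons.1 hv with e | e
  · exact Or.inl (e.trans (H.info _ p hp).2.1.symm)
  · obtain ⟨q, hq, e⟩ := List.mem_map.1 e
    refine Or.inr (List.mem_map.2 ⟨_, In.mem_rcs.2 ⟨_, p, q, hp, hq, rfl⟩, ?_⟩)
    simp only [ren, e]
    exact Nat.div_add_mod' a N

theorem light (hk : 1 ≤ k) (a : ℕ) (ha : L.mem.get a = true) (hl : L.hv.get (a / N) = false) :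
    L.F.r a % N = L.ctr.get (a / N) := by
  obtain ⟨h1, h2, h3⟩ := H.r_mem h a
  rcases H.root_or h (h3 ha) with e | e
  · rwa [h1] at e
  obtain ⟨w, hw, f⟩ := H.fo
  obtain ⟨r, hr, e⟩ := List.mem_map.1 e
  obtain ⟨S, h4, h5⟩ := f.cnt r hr (e ▸ h2)
  have h6 : ∀ x ∈ S, x / N = a / N := fun x hx => by rw [← (H.r_mem h x).1, (h4 x hx).2, e, h1]
  have h7 := H.light_sum h hl hk (S := S.image (· % N)) fun u hu => by
    obtain ⟨x, hx, rfl⟩ := Finset.mem_image.1 hu
    exact h6 x hx ▸ h.mem_nds.1 (h.fst_nds (h4 x hx).1)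
  rw [Finset.sum_image fun x hx y hy e => by
    rw [← Nat.div_add_mod' x N, ← Nat.div_add_mod' y N, h6 x hx, h6 y hy, show x % N = y % N from e]]
    at h7
  have h8 : ∑ x ∈ S, w x ≤ ∑ x ∈ S, wt G (x % N) := Finset.sum_le_sum fun x hx => by
    rw [hw x (h.fst_nds (h4 x hx).1)]; exact min_le_right _ _
  omega

theorem ns' (a : ℕ) : a ∈ L.ns ↔ L.F.sp.get a ≠ [] := by
  obtain ⟨w, -, f⟩ := H.fo
  rw [H.ns, List.mem_filter]
  exact ⟨fun h => by simpa using h.2, fun e => ⟨h.fst_nds (f.fst_mem e), by simpa using e⟩⟩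

theorem ns_te (z : ℕ) : L.ns.countP (fun a => (L.F.te.get a).1 = z) ≤ 2 * J := by
  have h1 : L.ns.countP (fun a => (L.F.te.get a).1 = z) ≤
      L.ns.countP (fun a => a % N ∈ ({ta z, hd z} : Finset ℕ)) := by
    refine List.countP_mono_left fun a ha e => ?_
    rcases H.fo' h a with f | f
    · exact absurd f.1 ((H.ns' h a).1 ha)
    · have := f.2.2.2.2.2.2.1
      rw [decide_eq_true_eq] at e
      rw [← this, src, e]
      split_ifs <;> simp
  have h2 : L.ns.Sublist (nds N cs) := H.ns ▸ List.filter_sublist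
  refine (h1.trans h2.countP_le).trans ?_
  rw [countP_le_sum]
  refine (Finset.sum_le_card_nsmul _ _ J fun u _ => h.nds_count u).trans ?_
  exact Nat.mul_le_mul_right _ Finset.card_le_two

theorem hv_sub (j j' : ℕ) (hs : ∀ u, Mem cs j u → Mem cs j' u) (hj : L.hv.get j = true) :
    L.hv.get j' = true := by
  obtain ⟨p, hp⟩ := H.hv_lt j hj
  obtain ⟨p', hp', -⟩ := hs _ ⟨p, hp, List.mem_cons_self⟩
  refine (H.info j' p' hp').2.2.2 (((H.info j p hp).2.2.1 hj).trans ?_)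
  rw [vol, ← List.sum_toFinset _ (h.vnd (List.mem_of_getElem? hp))]
  exact h.sum_vol hp' fun u hu => hs u ⟨p, hp, List.mem_toFinset.1 hu⟩

/-- the vertices below a node have small weight -/
theorem below (hk : 1 ≤ k) (a : ℕ) : ∃ U : Finset ℕ, (∀ x, a ∈ L.F.sp.get x → x % N ∈ U) ∧
    ∑ u ∈ U, wt G u < k := by
  obtain ⟨w, hw, f⟩ := H.fo
  let B := (nds N cs).toFinset.filter fun x => a ∈ L.F.sp.get x
  refine ⟨B.image (· % N), fun x hx => Finset.mem_image_of_mem _ (Finset.mem_filter.2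
    ⟨List.mem_toFinset.2 (h.fst_nds (f.fst_mem (List.ne_nil_of_mem hx))), hx⟩), ?_⟩
  refine (Finset.sum_image_le_of_nonneg fun _ _ => Nat.zero_le _).trans_lt ?_
  rcases B.eq_empty_or_nonempty with e | e
  · rw [e]; exact hk
  have h1 := f.load a B e fun x hx => (Finset.mem_filter.1 hx).2
  refine lt_of_eq_of_lt (Finset.sum_congr rfl fun x hx => ?_) h1
  have h2 := Finset.single_le_sum (f := w) (fun _ _ => Nat.zero_le _) hx
  have h3 := hw x (List.mem_toFinset.1 (Finset.mem_filter.1 hx).1)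
  omega

/-- there are few stops in heavy clusters -/
theorem stops (T : Finset ℕ) (hT : ∀ a ∈ T, L.mem.get a = true ∧ L.F.sp.get a = [] ∧
    L.hv.get (a / N) = true) : k * T.card ≤ 2 * J * (vs.length + 2 * G.length) := by
  classical
  obtain ⟨w, hw, f⟩ := H.fo
  have h0 : ∑ a ∈ (nds N cs).toFinset, wt G (a % N) ≤ J * (vs.length + 2 * G.length) :=
    (h.sum_nds _).trans (Nat.mul_le_mul_left _ ((sum_wt G _).trans
      (by rw [List.toFinset_card_of_nodup h.nd])))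
  have h1 := f.stops (T.filter (· ∈ (rcs N cs).map Prod.fst)) fun x hx =>
    ⟨(Finset.mem_filter.1 hx).2, (hT x (Finset.mem_filter.1 hx).1).2.1⟩
  have h2 : ∑ y ∈ ((rcs N cs).map Prod.fst).toFinset, w y
      ≤ ∑ a ∈ (nds N cs).toFinset, wt G (a % N) :=
    (Finset.sum_le_sum fun y hy => by
      rw [hw y (h.fst_nds (List.mem_toFinset.1 hy))]; exact min_le_right _ _).trans
      (Finset.sum_le_sum_of_subset fun y hy => List.mem_toFinset.2
        (h.fst_nds (List.mem_toFinset.1 hy)))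
  set T' := T.filter (· ∉ (rcs N cs).map Prod.fst)
  have h3 : ∀ a ∈ T', a % N = L.ctr.get (a / N) := fun a ha =>
    (H.root_or h (hT a (Finset.mem_filter.1 ha).1).1).resolve_right (Finset.mem_filter.1 ha).2
  have h4 : ∑ a ∈ T', ∑ y ∈ (nds N cs).toFinset.filter (· / N = a / N), wt G (y % N)
      ≤ ∑ a ∈ (nds N cs).toFinset, wt G (a % N) := by
    rw [← Finset.sum_biUnion fun a ha b hb hne => Finset.disjoint_left.2 fun y hy hy' => hne (by
      have e := (Finset.mem_filter.1 hy).2.symm.trans (Finset.mem_filter.1 hy').2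
      rw [← Nat.div_add_mod' a N, ← Nat.div_add_mod' b N, h3 a ha, h3 b hb, e])]
    exact Finset.sum_le_sum_of_subset (Finset.biUnion_subset.2 fun _ _ => Finset.filter_subset _ _)
  have h5 := Finset.card_nsmul_le_sum T' (fun a => ∑ y ∈ (nds N cs).toFinset.filter
      (· / N = a / N), wt G (y % N)) k fun a ha => by
    have a1 := (hT a (Finset.mem_filter.1 ha).1).2.2
    obtain ⟨p, hp⟩ := H.hv_lt _ a1
    refine ((H.info _ p hp).2.2.1 a1).trans ?_
    rw [vol, ← List.sum_toFinset _ (h.vnd (List.mem_of_getElem? hp))]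
    refine le_trans (Finset.sum_le_sum_of_subset fun u hu => ?_)
      (Finset.sum_image_le_of_nonneg (g := (· % N)) fun _ _ => Nat.zero_le _)
    have hu' := List.mem_toFinset.1 hu
    have a2 := h.vlt hp hu'
    refine Finset.mem_image.2 ⟨a / N * N + u, Finset.mem_filter.2 ⟨List.mem_toFinset.2
      (h.mem_nds.2 ?_), ix_div a2⟩, ix_mod a2⟩
    rw [ix_div a2, ix_mod a2]
    exact ⟨p, hp, hu'⟩
  have h6 := Finset.card_filter_add_card_filter_not (s := T) (· ∈ (rcs N cs).map Prod.fst)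
  rw [smul_eq_mul] at h5
  rw [← h6]
  nlinarith

end Raw

end Vale.Agent.P305U
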