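import Vale.Agent.P305U.Defs

/-!
# Cutting a forest at stops: spokes
-/

namespace Vale.Agent.P305U

open Vale.Agent.P305E Vale.Agent.P305W

/-- A node with its parent and the signed item to the parent. -/
abbrev Rc : Type := ℕ × ℕ × SI

/-- Children come before their parents. -/
def FL (l : List Rc) : Prop :=
  (l.Pairwise fun r q => q.1 ≠ r.1 ∧ q.2.1 ≠ r.1) ∧ ∀ r ∈ l, r.2.1 ≠ r.1

/-- All nodes are stops. -/
def Fo.empty : Fo := ⟨Arr.const 0, Arr.const (0, true), Arr.const [], Arr.const [], Arr.const none⟩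

@[fun_prop] theorem Fo.p_empty {α : Type} [Rep α] : Pure fun _ : α => Fo.empty := by
  unfold Fo.empty; fun_prop

/-- A new leaf which is not a stop. -/
def Fo.add (F : Fo) (r : Rc) : Fo :=
  ⟨F.par.set r.1 r.2.1, F.te.set r.1 r.2.2, F.sp.set r.1 (r.1 :: F.sp.get r.2.1),
    F.wk.set r.1 (r.2.2 :: F.wk.get r.2.1), F.rt.set r.1 (some (F.r r.2.1))⟩

@[fun_prop] theorem Fo.p_add {α : Type} [Rep α] {F : α → Fo} {r : α → Rc} (hF : Pure F)
    (hr : Pure r) : Pure fun a => (F a).add (r a) := by unfold Fo.add; fun_prop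

/-- The weights after a leaf has been merged into its parent. -/
def mrg (k : ℕ) (w : Arr ℕ) (r : Rc) : Arr ℕ := w.set r.2.1 (min k (w.get r.2.1 + w.get r.1))

/-- The records of the nodes that are not stops. -/
def kp (k : ℕ) : Arr ℕ → List Rc → List Rc
  | _, [] => []
  | w, r :: l => if k ≤ w.get r.1 then kp k w l else r :: kp k (mrg k w r) l

/-- The cut forest. -/
def cut (k : ℕ) (w : Arr ℕ) (l : List Rc) : Fo := (kp k w l).foldr (fun r F => F.add r) Fo.empty

/-- The program. -/
def cutP (k : ℕ) (w : Arr ℕ) (l : List Rc) : M Fo := do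
  let s ← foldP (fun (s : Arr ℕ × List Rc) r =>
    if k ≤ s.1.get r.1 then s else (mrg k s.1 r, r :: s.2)) (w, []) l
  foldP Fo.add Fo.empty s.2

@[fun_prop] theorem impl_cutP : Impl fun p : ℕ × Arr ℕ × List Rc => cutP p.1 p.2.1 p.2.2 := by
  unfold cutP mrg; fun_prop

theorem kp_fold (k : ℕ) (l : List Rc) (w : Arr ℕ) (acc : List Rc) :
    (l.foldl (fun (s : Arr ℕ × List Rc) r =>
      if k ≤ s.1.get r.1 then s else (mrg k s.1 r, r :: s.2)) (w, acc)).2
      = (kp k w l).reverse ++ acc := by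
  induction l generalizing w acc with
  | nil => rfl
  | cons r l ih =>
    rw [List.foldl_cons, kp]
    split_ifs with h
    · exact ih _ _
    · rw [ih]; simp

theorem kp_sub (k : ℕ) (l : List Rc) (w : Arr ℕ) : (kp k w l).Sublist l := by
  induction l generalizing w with
  | nil => exact .slnil
  | cons r l ih =>
    rw [kp]
    split_ifs with h
    · exact (ih _).cons _
    · exact (ih _).cons_cons _

theorem cutP_tri (c : Cx) (k : ℕ) (w : Arr ℕ) (l : List Rc) :
    Tri c (cutP k w l) fun F t => F = cut k w l ∧ t ≤ 2 * l.length := by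
  have := (kp_sub k l w).length_le
  simp only [cutP, Tri_bind, Tri_foldP, kp_fold, List.append_nil, List.foldl_reverse,
    List.length_reverse]
  exact ⟨rfl, by omega⟩

/-- What is known about a cut forest. -/
structure FoOK (k : ℕ) (w : ℕ → ℕ) (l : List Rc) (F : Fo) : Prop where
  stop : ∀ x, F.sp.get x = [] → F.wk.get x = [] ∧ F.r x = x
  step : ∀ x, F.sp.get x ≠ [] → (x, F.par.get x, F.te.get x) ∈ l ∧
    F.sp.get x = x :: F.sp.get (F.par.get x) ∧
    F.wk.get x = F.te.get x :: F.wk.get (F.par.get x) ∧ F.r x = F.r (F.par.get x)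
  load : ∀ v (S : Finset ℕ), S.Nonempty → (∀ x ∈ S, v ∈ F.sp.get x) → ∑ x ∈ S, w x < k
  cnt : ∀ r ∈ l, F.sp.get r.1 = [] → ∃ S : Finset ℕ,
    (∀ x ∈ S, x ∈ l.map Prod.fst ∧ F.r x = r.1) ∧ k ≤ ∑ x ∈ S, w x

theorem FoOK.ind {k : ℕ} {w : ℕ → ℕ} {l : List Rc} {F : Fo} (h : FoOK k w l F) {P : ℕ → Prop}
    (h0 : ∀ x, F.sp.get x = [] → P x) (h1 : ∀ x, F.sp.get x ≠ [] → P (F.par.get x) → P x)
    (x : ℕ) : P x := by
  induction hn : (F.sp.get x).length generalizing x with
  | zero => exact h0 x (List.length_eq_zero_iff.1 hn)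
  | succ n ih =>
    have e : F.sp.get x ≠ [] := fun e => by simp [e] at hn
    refine h1 x e (ih _ ?_)
    rw [(h.step x e).2.1] at hn
    simpa using hn

theorem FoOK.mem_sp {k : ℕ} {w : ℕ → ℕ} {l : List Rc} {F : Fo} (h : FoOK k w l F) (x : ℕ) :
    ∀ v ∈ F.sp.get x, F.sp.get v ≠ [] := by
  refine h.ind (P := fun x => ∀ v ∈ F.sp.get x, F.sp.get v ≠ []) (fun x e v hv => ?_)
    (fun x e ih v hv => ?_) x
  · simp [e] at hv
  · rw [(h.step x e).2.1, List.mem_cons] at hv
    rcases hv with rfl | hv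
    · exact e
    · exact ih v hv

theorem FoOK.fst_mem {k : ℕ} {w : ℕ → ℕ} {l : List Rc} {F : Fo} (h : FoOK k w l F) {x : ℕ}
    (hx : F.sp.get x ≠ []) : x ∈ l.map Prod.fst := List.mem_map.2 ⟨_, (h.step x hx).1, rfl⟩

theorem cut_ok (k : ℕ) : ∀ {l : List Rc} (w : Arr ℕ), FL l → FoOK k w.get l (cut k w l)
  | [], w, _ => ⟨fun _ _ => ⟨rfl, rfl⟩, fun _ h => absurd rfl h,
      fun v S ⟨x, hx⟩ h => by simpa [cut, kp, Fo.empty] using h x hx, by simp⟩
  | r :: l, w, ht => by
    have ht0 := List.pairwise_cons.1 ht.1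
    have ht1 : FL l := ⟨ht0.2, fun q hq => ht.2 q (List.mem_cons_of_mem _ hq)⟩
    have hx : r.1 ∉ l.map Prod.fst := fun h => by
      obtain ⟨q, hq, e⟩ := List.mem_map.1 h
      exact (ht0.1 q hq).1 e
    have hxp : r.2.1 ≠ r.1 := ht.2 r List.mem_cons_self
    by_cases hk : k ≤ w.get r.1
    · have ih := cut_ok k w ht1
      have e : cut k w (r :: l) = cut k w l := by rw [cut, kp, if_pos hk, cut]
      rw [e]
      refine ⟨ih.stop, fun x h => ?_, ih.load, fun q hq h => ?_⟩
      · exact ⟨List.mem_cons_of_mem _ (ih.step x h).1, (ih.step x h).2⟩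
      · rcases List.mem_cons.1 hq with rfl | hq
        · exact ⟨{q.1}, by simpa using (ih.stop _ h).2, by simpa using hk⟩
        · obtain ⟨S, h1, h2⟩ := ih.cnt q hq h
          exact ⟨S, fun x hx => ⟨List.mem_cons_of_mem _ (h1 x hx).1, (h1 x hx).2⟩, h2⟩
    · have ih := cut_ok k (mrg k w r) ht1
      have e : cut k w (r :: l) = (cut k (mrg k w r) l).add r := by
        rw [cut, kp, if_neg hk, cut]; rfl
      rw [e]
      generalize cut k (mrg k w r) l = F at ih
      have hr : ∀ x, x ≠ r.1 → (F.add r).r x = F.r x := fun x h => by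
        simp [Fo.add, Fo.r, h]
      have hr' : (F.add r).r r.1 = F.r r.2.1 := by simp [Fo.add, Fo.r]
      have hs : ∀ x, r.1 ∉ F.sp.get x := fun x h => hx (ih.fst_mem (ih.mem_sp x _ h))
      have hw : ∀ x, x ≠ r.2.1 → (mrg k w r).get x = w.get x := fun x h => by simp [mrg, h]
      have hw' : (mrg k w r).get r.2.1 = min k (w.get r.2.1 + w.get r.1) := by simp [mrg]
      have hs' : ∀ T : Finset ℕ, ∑ x ∈ T.erase r.2.1, (mrg k w r).get x
          = ∑ x ∈ T.erase r.2.1, w.get x := fun T =>
        Finset.sum_congr rfl fun x hx => hw x (Finset.ne_of_mem_erase hx)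
      refine ⟨fun x h => ?_, fun x h => ?_, fun v S hS h => ?_, fun q hq h => ?_⟩
      · have h1 : x ≠ r.1 := fun e => by simp [Fo.add, e] at h
        rw [hr x h1]
        simpa [Fo.add, h1] using ih.stop x (by simpa [Fo.add, h1] using h)
      · by_cases h1 : x = r.1
        · subst h1
          have h2 : (F.add r).par.get r.1 = r.2.1 := by simp [Fo.add]
          rw [h2, hr', hr _ hxp]
          exact ⟨by simp [Fo.add], by simp [Fo.add, hxp], by simp [Fo.add, hxp], rfl⟩
        · obtain ⟨h2, h5, h6, h7⟩ := ih.step x (by simpa [Fo.add, h1] using h)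
          have h8 : F.par.get x ≠ r.1 := (ht0.1 _ h2).2
          have h9 : (F.add r).par.get x = F.par.get x := by simp [Fo.add, h1]
          rw [h9, hr x h1, hr _ h8]
          exact ⟨List.mem_cons_of_mem _ (by simpa [Fo.add, h1] using h2),
            by simpa [Fo.add, h1, h8] using h5, by simpa [Fo.add, h1, h8] using h6, h7⟩
      · have h0 : ∀ x ∈ S, x ≠ r.1 → v ∈ F.sp.get x := fun x hx h1 => by
          simpa [Fo.add, h1] using h x hx
        by_cases hv : v = r.1
        · have : S = {r.1} := hS.subset_singleton_iff.1 fun x hx => Finset.mem_singleton.2 (by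
            by_contra h1
            exact hs x (hv ▸ h0 x hx h1))
          rw [this, Finset.sum_singleton]
          omega
        · have key : ∀ T : Finset ℕ, T.Nonempty → (∀ x ∈ T, v ∈ F.sp.get x) →
              ∑ x ∈ T, w.get x + (if r.2.1 ∈ T then w.get r.1 else 0) < k := fun T hT h1 => by
            have h2 := ih.load v T hT h1
            split_ifs with h3
            · rw [← Finset.add_sum_erase _ _ h3] at h2 ⊢
              rw [hs' T, hw'] at h2
              omega
            · rwa [Finset.sum_congr rfl fun x hx => hw x fun e => h3 (e ▸ hx)] at h2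
          by_cases h1 : r.1 ∈ S
          · have h2 : v ∈ F.sp.get r.2.1 := by simpa [Fo.add, hv] using h _ h1
            have h3 := key (insert r.2.1 (S.erase r.1)) (Finset.insert_nonempty _ _) fun x hx => by
              rcases Finset.mem_insert.1 hx with rfl | hx
              · exact h2
              · exact h0 x (Finset.mem_of_mem_erase hx) (Finset.ne_of_mem_erase hx)
            rw [if_pos (Finset.mem_insert_self _ _)] at h3
            have h4 : ∑ x ∈ S.erase r.1, w.get x ≤ ∑ x ∈ insert r.2.1 (S.erase r.1), w.get x :=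
              Finset.sum_le_sum_of_subset (Finset.subset_insert _ _)
            rw [← Finset.add_sum_erase _ _ h1]
            omega
          · have := key S hS fun x hx => h0 x hx fun e => h1 (e ▸ hx)
            omega
      · have h1 : q.1 ≠ r.1 := fun e => by simp [Fo.add, e] at h
        rcases List.mem_cons.1 hq with rfl | hq
        · exact absurd rfl h1
        · obtain ⟨S, h2, h3⟩ := ih.cnt q hq (by simpa [Fo.add, h1] using h)
          have h4 : ∀ x ∈ S, x ≠ r.1 := fun x h e => hx (e ▸ (h2 x h).1)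
          by_cases h5 : r.2.1 ∈ S
          · refine ⟨insert r.1 S, fun x hx => ?_, ?_⟩
            · rcases Finset.mem_insert.1 hx with rfl | hx
              · exact ⟨List.mem_cons_self, hr'.trans (h2 _ h5).2⟩
              · exact ⟨List.mem_cons_of_mem _ (h2 x hx).1, (hr x (h4 x hx)).trans (h2 x hx).2⟩
            · rw [Finset.sum_insert fun h => h4 _ h rfl, ← Finset.add_sum_erase _ _ h5]
              rw [← Finset.add_sum_erase _ _ h5, hs' S, hw'] at h3
              omega
          · refine ⟨S, fun x hx => ⟨List.mem_cons_of_mem _ (h2 x hx).1,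
              (hr x (h4 x hx)).trans (h2 x hx).2⟩, ?_⟩
            rwa [Finset.sum_congr rfl fun x hx => hw x fun e => h5 (e ▸ hx)] at h3

namespace FoOK

variable {k : ℕ} {w : ℕ → ℕ} {l : List Rc} {F : Fo}

theorem wk_eq (h : FoOK k w l F) (x : ℕ) : F.wk.get x = (F.sp.get x).map F.te.get := by
  refine h.ind (P := fun x => F.wk.get x = (F.sp.get x).map F.te.get) (fun x e => ?_)
    (fun x e ih => ?_) x
  · simp [e, (h.stop x e).1]
  · rw [(h.step x e).2.1, (h.step x e).2.2.1, ih, List.map_cons]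

theorem sp_r (h : FoOK k w l F) (x : ℕ) : F.sp.get (F.r x) = [] :=
  h.ind (P := fun x => F.sp.get (F.r x) = []) (fun x e => by rw [(h.stop x e).2, e])
    (fun x e ih => by rw [(h.step x e).2.2.2, ih]) x

/-- the spoke of a vertex on a spoke is the rest of it -/
theorem sp_suffix (h : FoOK k w l F) (x : ℕ) : ∀ v ∈ F.sp.get x,
    F.sp.get v <:+ F.sp.get x ∧ F.r v = F.r x := by
  refine h.ind (P := fun x => ∀ v ∈ F.sp.get x, F.sp.get v <:+ F.sp.get x ∧ F.r v = F.r x)
    (fun x e v hv => ?_) (fun x e ih v hv => ?_) x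
  · simp [e] at hv
  · rw [(h.step x e).2.1, List.mem_cons] at hv
    rcases hv with rfl | hv
    · exact ⟨List.suffix_refl _, rfl⟩
    · rw [(h.step x e).2.1, (h.step x e).2.2.2]
      exact ⟨(ih v hv).1.trans (List.suffix_cons _ _), (ih v hv).2⟩

theorem sp_nodup (h : FoOK k w l F) (x : ℕ) : (F.sp.get x).Nodup := by
  refine h.ind (P := fun x => (F.sp.get x).Nodup) (fun x e => ?_) (fun x e ih => ?_) x
  · simp [e]
  · rw [(h.step x e).2.1, List.nodup_cons]
    refine ⟨fun hx => ?_, ih⟩
    have := (h.sp_suffix _ x hx).1.length_le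
    rw [(h.step x e).2.1] at this
    simp at this

theorem self_mem (h : FoOK k w l F) {x : ℕ} (hx : F.sp.get x ≠ []) : x ∈ F.sp.get x := by
  rw [(h.step x hx).2.1]; exact List.mem_cons_self

/-- the last vertex of a spoke is on the spokes of all its vertices -/
theorem last_mem (h : FoOK k w l F) (x : ℕ) : F.sp.get x ≠ [] →
    ∃ v, ∀ y ∈ F.sp.get x, v ∈ F.sp.get y := fun hx => by
  refine ⟨(F.sp.get x).getLast hx, fun y hy => ?_⟩
  rw [← (h.sp_suffix x y hy).1.getLast (h.mem_sp x y hy)]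
  exact List.getLast_mem _

/-- spokes are short -/
theorem sp_len (h : FoOK k w l F) (hw : ∀ x ∈ l.map Prod.fst, 1 ≤ w x) (x : ℕ) :
    (F.sp.get x).length ≤ k := by
  by_cases hx : F.sp.get x = []
  · simp [hx]
  obtain ⟨v, hv⟩ := h.last_mem x hx
  have h1 := h.load v (F.sp.get x).toFinset (by simpa using hx) (by simpa using hv)
  have h2 := Finset.card_nsmul_le_sum (F.sp.get x).toFinset w 1 fun y hy =>
    hw y (h.fst_mem (h.mem_sp x y (by simpa using hy)))
  rw [List.toFinset_card_of_nodup (h.sp_nodup x), smul_eq_mul, mul_one] at h2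
  exact h2.trans h1.le

/-- there are few stops -/
theorem stops (h : FoOK k w l F) (T : Finset ℕ)
    (hT : ∀ x ∈ T, x ∈ l.map Prod.fst ∧ F.sp.get x = []) :
    k * T.card ≤ ∑ y ∈ (l.map Prod.fst).toFinset, w y := by
  have h0 : ∀ x : T, ∃ S : Finset ℕ, (∀ y ∈ S, y ∈ l.map Prod.fst ∧ F.r y = x) ∧
      k ≤ ∑ y ∈ S, w y := fun ⟨x, hx⟩ => by
    obtain ⟨h1, h2⟩ := hT x hx
    obtain ⟨r, hr, rfl⟩ := List.mem_map.1 h1
    exact h.cnt r hr h2
  choose S h1 h2 using h0
  have h3 : ∑ x : T, ∑ y ∈ S x, w y ≤ ∑ y ∈ (l.map Prod.fst).toFinset, w y := by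
    rw [← Finset.sum_biUnion fun x _ x' _ hne => Finset.disjoint_left.2 fun y hy hy' =>
      hne (Subtype.ext ((h1 x y hy).2.symm.trans (h1 x' y hy').2))]
    refine Finset.sum_le_sum_of_subset fun y hy => ?_
    obtain ⟨x, -, hx⟩ := Finset.mem_biUnion.1 hy
    exact List.mem_toFinset.2 (h1 x y hx).1
  have h4 := Finset.card_nsmul_le_sum Finset.univ (fun x : T => ∑ y ∈ S x, w y) k
    fun x _ => h2 x
  rw [Finset.card_univ, Fintype.card_coe, smul_eq_mul, mul_comm] at h4
  exact h4.trans h3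

end FoOK

end Vale.Agent.P305U
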