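import Vale.Agent.P305U.Base

/-!
# The objects of a level
-/

namespace Vale.Agent.P305U

open Vale.Agent.P305E Vale.Agent.P305CV Vale.Agent.P305W Vale.Agent.P305Q

/-- The object of an edge in a cluster, if any. -/
def kaO (P : ℕ → ℕ) (L : LV) (e : WE) (j : ℕ) : Option Ob :=
  if L.mem.get (j * L.N + e.2.1) = true ∧ 1 ≤ L.sc.get j ∧ P (L.sc.get j - 1) ≤ e.2.2.1 ∧
    e.2.2.1 ≤ P (L.sc.get j) then some (kap L e j) else none

/-- The object of a vertex in two clusters, if any. -/
def prO (L : LV) (u j j' : ℕ) : Option Ob :=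
  if L.sc.get j' = L.sc.get j + 1 ∧ L.mem.get (j' * L.N + L.ctr.get j) = true then
    if L.hv.get j = true then (if L.hv.get j' = true then some (lam L u j j') else none)
    else some (mu L u j j')
  else none

/-- The objects of the edges. -/
def kaL (P : ℕ → ℕ) (L : LV) (G : List WE) : List Ob :=
  G.flatMap fun e => (L.cls.get e.1).filterMap (kaO P L e)

/-- The objects of a vertex. -/
def prU (L : LV) (u : ℕ) : List Ob :=
  (L.cls.get u).flatMap fun j => (L.cls.get u).filterMap (prO L u j)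

theorem countP_or_le {α : Type} (l : List α) (p q : α → Bool) :
    l.countP (fun x => p x || q x) ≤ l.countP p + l.countP q := by
  induction l with
  | nil => simp
  | cons x l ih =>
    simp only [List.countP_cons, Bool.or_eq_true]
    split_ifs <;> first | omega | tauto

variable {ta hd len : ℕ → ℕ} {N k J : ℕ} {P R : ℕ → ℕ} {vs : List ℕ} {G : List WE}
  {cs : List (ℕ × Cl)} {L : LV}

namespace Raw

variable (h : In ta hd len N J R vs G cs) (H : Raw N k G cs L)
include h H

omit h in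
theorem ctr_mem {j u : ℕ} (hu : Mem cs j u) : Mem cs j (L.ctr.get j) := by
  obtain ⟨p, hp, -⟩ := hu
  exact ⟨p, hp, (H.info j p hp).2.1 ▸ List.mem_cons_self⟩

theorem mem_ka {e : WE} (he : e ∈ G) {o : Ob} : o ∈ (L.cls.get e.1).filterMap (kaO P L e) ↔
    ∃ j, KapC P cs L e j ∧ o = kap L e j := by
  simp only [List.mem_filterMap, kaO, H.N_eq, H.mem_ix h (h.lt _ (h.ed e he).2), H.cls' h, KapC,
    Option.ite_none_right_eq_some, Option.some.injEq]
  exact exists_congr fun j => by tauto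

theorem mem_kaL {o : Ob} : o ∈ kaL P L G ↔ ∃ e ∈ G, ∃ j, KapC P cs L e j ∧ o = kap L e j := by
  rw [kaL, List.mem_flatMap]
  exact exists_congr fun e => and_congr_right fun he => H.mem_ka h he

theorem mem_prU {u : ℕ} {o : Ob} : o ∈ prU L u ↔ ∃ j j', PrC cs L u j j' ∧
    ((L.hv.get j = true ∧ L.hv.get j' = true ∧ o = lam L u j j') ∨
      (L.hv.get j = false ∧ o = mu L u j j')) := by
  simp only [prU, List.mem_flatMap, List.mem_filterMap, H.cls' h, PrC]
  refine exists_congr fun j => ⟨fun ⟨h1, j', h2, h3⟩ => ⟨j', ?_⟩, fun ⟨j', h1, h2⟩ =>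
    ⟨h1.1, j', h1.2.1, ?_⟩⟩
  · have e := H.mem_ix h (j := j') (h.mlt (H.ctr_mem h1))
    rw [prO, H.N_eq] at h3
    split_ifs at h3 with a b c
    · exact ⟨⟨h1, h2, e.1 a.2, a.1⟩, Or.inl ⟨b, c, (Option.some.inj h3).symm⟩⟩
    · exact ⟨⟨h1, h2, e.1 a.2, a.1⟩, Or.inr ⟨by simpa using b, (Option.some.inj h3).symm⟩⟩
  · rw [prO, H.N_eq, if_pos ⟨h1.2.2.2, (H.mem_ix h (h.mlt (H.ctr_mem h1.1))).2 h1.2.2.1⟩]
    rcases h2 with ⟨a, b, rfl⟩ | ⟨a, rfl⟩
    · rw [if_pos a, if_pos b]
    · rw [if_neg (by simp [a])]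

theorem prU_len (u : ℕ) : (prU L u).length ≤ J ^ 2 := by
  have h1 := H.cls_len h u
  rw [prU, List.length_flatMap]
  refine (List.sum_le_card_nsmul _ J fun x hx => ?_).trans (by simpa [sq] using Nat.mul_le_mul_right _ h1)
  obtain ⟨j, -, rfl⟩ := List.mem_map.1 hx
  exact (List.length_filterMap_le _ _).trans h1

theorem ka_len (e : WE) : ((L.cls.get e.1).filterMap (kaO P L e)).length ≤ J :=
  (List.length_filterMap_le _ _).trans (H.cls_len h _)

theorem kaL_len : (kaL P L G).length ≤ J * G.length := by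
  simpa [kaL] using countP_flatMap_le (l := G) (f := fun e => (L.cls.get e.1).filterMap (kaO P L e))
    (p := fun _ => true) (q := fun _ => true) (J := J) (by simp) fun e _ => by
      simpa using H.ka_len h e

theorem prL_len : (vs.flatMap (prU L)).length ≤ J ^ 2 * vs.length := by
  simpa using countP_flatMap_le (l := vs) (f := prU L) (p := fun _ => true) (q := fun _ => true)
    (J := J ^ 2) (by simp) fun u _ => by simpa using H.prU_len h u

theorem wk_G (a : ℕ) : ∀ c ∈ L.F.wk.get a, ∃ e ∈ G, e.2.2.2 = c.1 := fun c hc => by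
  obtain ⟨w, -, f⟩ := H.fo
  rw [f.wk_eq] at hc
  obtain ⟨v, hv, rfl⟩ := List.mem_map.1 hc
  rcases H.fo' h v with e | e
  · exact absurd e.1 (f.mem_sp a v hv)
  · exact e.2.2.2.2.2.1

omit h in
theorem wk_r (a : ℕ) : L.F.wk.get (L.F.r a) = [] := by
  obtain ⟨w, -, f⟩ := H.fo
  exact (f.stop _ (f.sp_r a)).1

theorem wk_length (hk : 1 ≤ k) (a : ℕ) : (L.F.wk.get a).length ≤ k := by
  obtain ⟨w, -, f⟩ := H.fo
  rw [f.wk_eq, List.length_map]
  exact H.sp_len h hk a

theorem light_ix (hk : 1 ≤ k) {j u : ℕ} (hu : Mem cs j u) (hl : L.hv.get j = false) :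
    L.F.r (j * N + u) % N = L.ctr.get j := by
  have := H.light h hk (j * N + u) ((H.mem_ix h (h.mlt hu)).2 hu) (by rwa [ix_div (h.mlt hu)])
  rwa [ix_div (h.mlt hu)] at this

theorem walk_ix {j u : ℕ} (hu : u < N) :
    IW ta hd u (L.F.wk.get (j * N + u)) (L.F.r (j * N + u) % N) := by
  simpa [ix_mod hu] using H.walk h (j * N + u)

theorem len_ix {j u : ℕ} (hu : u < N) : nsum len (L.F.wk.get (j * N + u)) ≤ R (L.sc.get j) := by
  simpa [ix_div hu] using H.wk_len h (j * N + u)

theorem lvOK (hk : 1 ≤ k) (ho : L.obs = kaL P L G ++ vs.flatMap (prU L)) :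
    LvOK ta hd len N k J P R vs G cs L := by
  have obs : ∀ o, o ∈ L.obs ↔ (∃ e ∈ G, ∃ j, KapC P cs L e j ∧ o = kap L e j) ∨
      (∃ u j j', PrC cs L u j j' ∧ L.hv.get j = true ∧ L.hv.get j' = true ∧ o = lam L u j j') ∨
      ∃ u j j', PrC cs L u j j' ∧ L.hv.get j = false ∧ o = mu L u j j' := fun o => by
    rw [ho, List.mem_append, H.mem_kaL h, List.mem_flatMap]
    refine or_congr_right ⟨fun ⟨u, _, h1⟩ => ?_, fun h1 => ?_⟩
    · obtain ⟨j, j', h2, h3 | h3⟩ := (H.mem_prU h).1 h1
      · exact Or.inl ⟨u, j, j', h2, h3⟩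
      · exact Or.inr ⟨u, j, j', h2, h3⟩
    · rcases h1 with ⟨u, j, j', h2, h3⟩ | ⟨u, j, j', h2, h3⟩
      · exact ⟨u, h.mvs h2.1, (H.mem_prU h).2 ⟨j, j', h2, Or.inl h3⟩⟩
      · exact ⟨u, h.mvs h2.1, (H.mem_prU h).2 ⟨j, j', h2, Or.inr h3⟩⟩
  have hN := H.N_eq
  have pe : ∀ u, ∀ o ∈ prU L u, o.x % N = u ∧ o.eo = none := fun u o hu => by
    obtain ⟨j, j', h2, ⟨-, -, rfl⟩ | ⟨-, rfl⟩⟩ := (H.mem_prU h).1 hu <;>
      exact ⟨by simp only [lam, mu, hN, ix_mod (h.mlt h2.1)], rfl⟩
  have cX : ∀ U : Finset ℕ, L.obs.countP (fun o => o.x % N ∈ U) ≤ J ^ 2 * ∑ u ∈ U, wt G u := by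
    intro U
    have h1 := countP_flatMap_le (l := G) (f := fun e => (L.cls.get e.1).filterMap (kaO P L e))
      (p := fun o => o.x % N ∈ U) (q := fun e => e.1 ∈ U) (J := J) (fun e he o ho hp => by
        obtain ⟨j, h2, rfl⟩ := (H.mem_ka h he).1 ho
        simpa only [kap, hN, ix_mod (h.mlt h2.1)] using hp)
      fun e _ => List.countP_le_length.trans (H.ka_len h e)
    have h2 := countP_flatMap_le (l := vs) (f := prU L) (p := fun o => o.x % N ∈ U)
      (q := fun u => u ∈ U) (J := J ^ 2) (fun u _ o ho hp => by simpa only [(pe u o ho).1] using hp)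
      fun u _ => List.countP_le_length.trans (H.prU_len h u)
    rw [countP_le_sum G (fun e => e.1)] at h1
    rw [countP_le_sum vs (fun e => e)] at h2
    have h3 : J ≤ J ^ 2 := Nat.le_self_pow two_ne_zero J
    have h4 : ∑ u ∈ U, G.countP (fun e => e.1 = u) + ∑ u ∈ U, vs.countP (fun e => e = u)
        ≤ ∑ u ∈ U, wt G u := by
      rw [← Finset.sum_add_distrib]
      exact Finset.sum_le_sum fun u _ => by have := countP_nodup h.nd u; rw [wt]; omega
    rw [ho, List.countP_append, kaL]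
    nlinarith [Nat.mul_le_mul_right (∑ u ∈ U, G.countP (fun e => e.1 = u)) h3,
      Nat.mul_le_mul_left (J ^ 2) h4]
  have cE : ∀ (p : Ob → Bool) (q : WE → Bool), (∀ o, p o = true → o.eo ≠ none) →
      (∀ e j, Mem cs j e.2.1 → p (kap L e j) = true → q e = true) →
      L.obs.countP p ≤ J * G.countP q := fun p q h1 h2 => by
    rw [ho, List.countP_append, (List.countP_eq_zero (l := vs.flatMap (prU L))).2 fun o ho hp => by
      obtain ⟨u, -, hu⟩ := List.mem_flatMap.1 ho
      exact h1 o hp (pe u o hu).2]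
    exact countP_flatMap_le (fun e he o ho hp => by
      obtain ⟨j, h3, rfl⟩ := (H.mem_ka h he).1 ho
      exact h2 e j h3.2.1 hp) fun e _ => List.countP_le_length.trans (H.ka_len h e)
  refine ⟨hN, H.mem' h, H.info, H.cls' h, H.cls_nd h, H.cls_len h, H.fo' h,
    H.fo.choose_spec.2.wk_eq, H.walk h, H.sp_len h hk, H.wk_len h, H.sp_mem h, H.r_mem h,
    H.light h hk, H.ns' h, H.ns ▸ h.nds_nodup.filter _,
    (H.ns ▸ List.length_filter_le _ _ : L.ns.length ≤ _).trans h.nds_len, H.ns_te h, obs,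
    H.hv_sub h, fun o ho => ?_, fun o ho => ?_, ?_, fun T hT => ?_, fun a => ?_, fun z => ?_,
    fun j => ?_⟩
  · rcases (obs o).1 ho with ⟨e, he, j, h1, rfl⟩ | ⟨u, j, j', h1, -, -, rfl⟩ |
      ⟨u, j, j', h1, h2, rfl⟩ <;>
      simp only [LV.a0, LV.b0, Fo.W, kap, lam, mu, hN, H.wk_r, Option.toList, List.nil_append]
    · exact (H.walk_ix h (h.mlt h1.1)).rev.append
        ⟨(h.it e he).1, by rw [dst, if_pos rfl, (h.it e he).2.1]; exact H.walk_ix h (h.mlt h1.2.1)⟩
    · exact (H.walk_ix h (h.mlt h1.1)).rev.append (H.walk_ix h (h.mlt h1.1))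
    · exact (H.walk_ix h (h.mlt h1.1)).rev.append ((H.walk_ix h (h.mlt h1.1)).append
        (by rw [H.light_ix h hk h1.1 h2]; exact H.walk_ix h (h.mlt h1.2.2.1)))
  · have l1 := H.wk_length h hk o.x
    have l2 := H.wk_length h hk o.z
    have l3 := H.wk_length h hk o.y
    have l4 : o.eo.toList.length ≤ 1 := by cases o.eo <;> simp
    have l5 : (∀ c ∈ o.eo.toList, ∃ e ∈ G, e.2.2.2 = c.1) → (L.F.W o).length ≤ 3 * k + 1 ∧
        ∀ c ∈ L.F.W o, ∃ e ∈ G, e.2.2.2 = c.1 := fun h1 => ⟨by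
      simp only [Fo.W, List.length_append, length_rev]; omega, fun c hc => by
      simp only [Fo.W, List.mem_append, mem_rev] at hc
      rcases hc with hc | hc | hc | hc
      exacts [H.wk_G h _ (c.1, !c.2) hc, h1 c hc, H.wk_G h _ _ hc, H.wk_G h _ _ hc]⟩
    rcases (obs o).1 ho with ⟨e, he, j, h1, rfl⟩ | ⟨u, j, j', h1, -, -, rfl⟩ |
      ⟨u, j, j', h1, h2, rfl⟩
    · refine ⟨h1.2.2.1, ?_, l5 (by simpa [kap] using ⟨_, _, _, he⟩)⟩
      have a1 := H.len_ix h (j := j) (h.mlt h1.1)
      have a2 := H.len_ix h (j := j) (h.mlt h1.2.1)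
      have a3 := h1.2.2.2.2
      simp only [Fo.W, kap, hN, H.wk_r, Option.toList, nsum_append, nsum_rev, nsum_cons,
        nsum_nil, (h.it e he).2.2]
      omega
    · refine ⟨by simp [lam, h1.2.2.2], ?_, l5 (by simp [lam])⟩
      have a1 := H.len_ix h (j := j) (h.mlt h1.1)
      have a2 := H.len_ix h (j := j') (h.mlt h1.1)
      simp only [Fo.W, lam, hN, H.wk_r, Option.toList, nsum_append, nsum_rev, nsum_nil,
        h1.2.2.2, Nat.add_sub_cancel] at a2 ⊢
      omega
    · refine ⟨by simp [mu, h1.2.2.2], ?_, l5 (by simp [mu])⟩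
      have a1 := H.len_ix h (j := j) (h.mlt h1.1)
      have a2 := H.len_ix h (j := j') (h.mlt h1.1)
      have a3 := H.len_ix h (j := j') (h.mlt h1.2.2.1)
      simp only [Fo.W, mu, hN, Option.toList, nsum_append, nsum_rev, nsum_nil,
        h1.2.2.2, Nat.add_sub_cancel] at a2 a3 ⊢
      omega
  · rw [ho, List.length_append]
    exact Nat.add_le_add (H.kaL_len h) (H.prL_len h)
  · let St := (nds N cs).toFinset.filter fun a => L.F.sp.get a = [] ∧ L.hv.get (a / N) = true
    have h1 := H.stops h St fun a ha => ⟨(H.mem a).2 (List.mem_toFinset.1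
      (Finset.mem_filter.1 ha).1), (Finset.mem_filter.1 ha).2⟩
    have st : ∀ j u, Mem cs j u → L.hv.get j = true → L.F.r (j * N + u) ∈ St ∧
        L.F.r (j * N + u) / N = j := fun j u hu hj => by
      obtain ⟨a1, a2, a3⟩ := H.r_mem h (j * N + u)
      rw [ix_div (h.mlt hu)] at a1
      exact ⟨Finset.mem_filter.2 ⟨List.mem_toFinset.2 ((H.mem _).1
        (a3 ((H.mem_ix h (h.mlt hu)).2 hu))), a2, a1.symm ▸ hj⟩, a1⟩
    have h2 : T ⊆ St.image (fun a => (L.sc.get (a / N), a % N)) ∪
        St.image fun a => (L.sc.get (a / N) + 1, a % N) := fun p hp => by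
      obtain ⟨o, ho, hne, e1, e2⟩ := hT p hp
      have same : ∀ j u v, Mem cs j u → Mem cs j v → o.sc = L.sc.get j → o.x = j * N + u →
          o.y = j * N + v → p ∈ St.image fun a => (L.sc.get (a / N), a % N) := by
        intro j u v hu hv a1 a2 a3
        simp only [LV.a0, LV.b0, a2, a3, hN] at hne e2
        have hj : L.hv.get j = true := by
          by_contra hj
          rw [Bool.not_eq_true] at hj
          exact hne ((H.light_ix h hk hu hj).trans (H.light_ix h hk hv hj).symm)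
        rcases e2 with e2 | e2
        · exact Finset.mem_image.2 ⟨_, (st j u hu hj).1,
            Prod.ext (by rw [(st j u hu hj).2, e1, a1]) e2.symm⟩
        · exact Finset.mem_image.2 ⟨_, (st j v hv hj).1,
            Prod.ext (by rw [(st j v hv hj).2, e1, a1]) e2.symm⟩
      rcases (obs o).1 ho with ⟨e, he, j, h1, rfl⟩ | ⟨u, j, j', h1, h2, h3, rfl⟩ |
        ⟨u, j, j', h1, h2, rfl⟩
      · exact Finset.mem_union_left _ (same j _ _ h1.1 h1.2.1 rfl (hN ▸ rfl) (hN ▸ rfl))
      · simp only [LV.a0, LV.b0, lam, hN] at e1 e2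
        rcases e2 with e2 | e2
        · exact Finset.mem_union_right _ (Finset.mem_image.2 ⟨_, (st j u h1.1 h2).1,
            Prod.ext (by rw [(st j u h1.1 h2).2, e1, h1.2.2.2]) e2.symm⟩)
        · exact Finset.mem_union_left _ (Finset.mem_image.2 ⟨_, (st j' u h1.2.1 h3).1,
            Prod.ext (by rw [(st j' u h1.2.1 h3).2, e1]) e2.symm⟩)
      · exact Finset.mem_union_left _ (same j' _ _ h1.2.1 h1.2.2.1 rfl (hN ▸ rfl) (hN ▸ rfl))
    have h3 := ((Finset.card_le_card h2).trans (Finset.card_union_le _ _)).trans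
      (Nat.add_le_add Finset.card_image_le Finset.card_image_le)
    nlinarith [Nat.mul_le_mul_left k h3]
  · classical
    obtain ⟨U, u1, u2⟩ := H.below h hk a
    let V := U.biUnion fun c => (L.cls.get c).toFinset.biUnion fun j =>
      vs.toFinset.filter fun u => Mem cs j u ∧ L.hv.get j = false
    have v1 : U.card ≤ k := by
      have := Finset.card_nsmul_le_sum U (wt G) 1 fun u _ => by rw [wt]; omega
      rw [smul_eq_mul, mul_one] at this
      exact this.trans u2.le
    have v2 : ∑ u ∈ V, wt G u ≤ U.card * (J * k) := sum_biUnion_le fun c _ =>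
      (sum_biUnion_le (c := k) fun j _ => by
        by_cases hj : L.hv.get j = false
        · exact (H.light_sum h hj hk fun u hu => (Finset.mem_filter.1 hu).2.1).le
        · simp [hj]).trans (Nat.mul_le_mul_right _ ((List.toFinset_card_le _).trans
          (H.cls_len h c)))
    have v3 := cX (U ∪ V)
    have v4 := Finset.sum_union_inter (s₁ := U) (s₂ := V) (f := wt G)
    have v5 := cE (fun o => o.eo ≠ none ∧ o.y % N ∈ U) (fun e => e.2.1 ∈ U)
      (fun o ho => (of_decide_eq_true ho).1) fun e j h1 ho => by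
        simpa only [kap, hN, ix_mod (h.mlt h1)] using decide_eq_true (of_decide_eq_true ho).2
    have v6 : G.countP (fun e => e.2.1 ∈ U) ≤ k := by
      rw [countP_le_sum G (fun e => e.2.1)]
      exact (Finset.sum_le_sum fun u _ => by rw [wt]; omega).trans u2.le
    have v7 : L.obs.countP (fun o => a ∈ L.F.sp.get o.x ∨ a ∈ L.F.sp.get o.z ∨ a ∈ L.F.sp.get o.y)
        ≤ L.obs.countP (fun o => o.x % N ∈ U ∪ V) +
          L.obs.countP fun o => o.eo ≠ none ∧ o.y % N ∈ U := by
      refine le_trans (List.countP_mono_left fun o ho hp => ?_)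
        (countP_or_le L.obs (fun o => o.x % N ∈ U ∪ V) fun o => o.eo ≠ none ∧ o.y % N ∈ U)
      rw [decide_eq_true_eq] at hp
      simp only [Bool.or_eq_true, decide_eq_true_eq, Finset.mem_union]
      rcases hp with hp | hp
      · exact Or.inl (Or.inl (u1 _ hp))
      rcases (obs o).1 ho with ⟨e, he, j, h1, rfl⟩ | ⟨u, j, j', h1, h2, h3, rfl⟩ |
        ⟨u, j, j', h1, h2, rfl⟩
      · rcases hp with hp | hp
        · simp [kap, (H.r_mem h _).2.1] at hp
        · exact Or.inr ⟨by simp [kap], u1 _ hp⟩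
      · rcases hp with hp | hp
        · simp [lam, (H.r_mem h _).2.1] at hp
        · exact Or.inl (Or.inl (by simpa only [lam, hN, ix_mod (h.mlt h1.1)] using u1 _ hp))
      · rcases hp with hp | hp
        · exact Or.inl (Or.inl (by simpa only [mu, hN, ix_mod (h.mlt h1.1)] using u1 _ hp))
        · have := u1 _ hp
          simp only [mu, hN, ix_mod (h.mlt h1.1), ix_mod (h.mlt h1.2.2.1)] at this ⊢
          exact Or.inl (Or.inr (Finset.mem_biUnion.2 ⟨_, this, Finset.mem_biUnion.2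
            ⟨j, List.mem_toFinset.2 ((H.cls' h _ _).2 (H.ctr_mem h1.1)), Finset.mem_filter.2
              ⟨List.mem_toFinset.2 (h.mvs h1.1), h1.1, h2⟩⟩⟩))
    have v8 : ∑ u ∈ U ∪ V, wt G u ≤ k + k * (J * k) := by
      have := Nat.mul_le_mul_right (J * k) v1
      omega
    have v9 := Nat.mul_le_mul_left (J ^ 2) v8
    have v10 := Nat.mul_le_mul_left J v6
    refine v7.trans ((Nat.add_le_add (v3.trans v9) (v5.trans v10)).trans ?_)
    ring_nf
    omega
  · have h1 := cE (fun o => o.eo.map Prod.fst = some z) (fun e => e.2.2.2 = z)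
      (fun o ho e => by simp [e] at ho) fun e j _ ho => by simpa [kap] using ho
    have h2 := countP_nodup h.ids z
    rw [List.countP_map] at h2
    exact h1.trans ((Nat.mul_le_mul_left J h2).trans_eq (mul_one J))
  · classical
    by_cases hj : L.hv.get j = false
    · have h1 := cX (vs.toFinset.filter (Mem cs j))
      have h2 := H.light_sum h hj hk (S := vs.toFinset.filter (Mem cs j)) fun u hu =>
        (Finset.mem_filter.1 hu).2
      refine (List.countP_mono_left fun o ho hp => ?_).trans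
        (h1.trans (Nat.mul_le_mul_left _ h2.le))
      rcases (obs o).1 ho with ⟨e, he, j, h1, rfl⟩ | ⟨u, j, j', h1, h2, h3, rfl⟩ |
        ⟨u, i, j', h3, h4, rfl⟩
      · simp [kap] at hp
      · simp [lam] at hp
      · have e : i = j := by simpa [mu] using hp
        simp [mu, hN, ix_mod (h.mlt h3.1), h.mvs h3.1, e ▸ h3.1]
    · rw [List.countP_eq_zero.2 fun o ho hp => ?_]
      · exact Nat.zero_le _
      rcases (obs o).1 ho with ⟨e, he, j, h1, rfl⟩ | ⟨u, j, j', h1, h2, h3, rfl⟩ |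
        ⟨u, i, j', h1, h2, rfl⟩
      · simp [kap] at hp
      · simp [lam] at hp
      · obtain rfl : i = j := by simpa [mu] using hp
        exact hj h2

end Raw

end Vale.Agent.P305U
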